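import Vale.Agent.P054.T2.H307.Win

/-!
# Ranks and slopes (P054, T2 project, row [R3])

Arithmetic between the ranks `R k` of function spaces at the scales `b ^ k` and the integer
slopes `e k`, and the final choice of the window.
-/

namespace Vale.Agent.P054.T2.H307

open Finset

/-- (a) **Lower bound of the rank by the slopes.**  On stable steps the rank is multiplied by
`b ^ (e k) / c`, on the others it does not decrease. -/
theorem pow_sum_le_rank (b c N : ℕ) (hb : 1 ≤ b) (hc : 1 ≤ c) (e R : ℕ → ℕ) (K : ℕ)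
    (he : ∀ k < K, e (k + 1) ≤ e k) (heN : ∀ k ≤ K, e k ≤ N)
    (hst : ∀ k < K, e (k + 1) = e k → b ^ (e k) * R k ≤ c * R (k + 1))
    (hmono : ∀ k < K, R k ≤ R (k + 1)) :
    b ^ (∑ k ∈ range K, e k) * R 0 ≤ c ^ K * b ^ (N * (e 0 - e K)) * R K ∧ e K ≤ e 0 := by
  induction K with
  | zero => simp
  | succ K ih =>
    obtain ⟨ih1, ih2⟩ := ih (fun k hk => he k (by omega)) (fun k hk => heN k (by omega))
      (fun k hk => hst k (by omega)) (fun k hk => hmono k (by omega))
    have hle := he K (by omega)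
    refine ⟨?_, hle.trans ih2⟩
    rw [Finset.sum_range_succ, pow_add]
    by_cases h : e (K + 1) = e K
    · have h1 := hst K (by omega) h
      calc b ^ (∑ k ∈ range K, e k) * b ^ (e K) * R 0
          = b ^ (e K) * (b ^ (∑ k ∈ range K, e k) * R 0) := by ring
        _ ≤ b ^ (e K) * (c ^ K * b ^ (N * (e 0 - e K)) * R K) := Nat.mul_le_mul_left _ ih1
        _ = c ^ K * b ^ (N * (e 0 - e K)) * (b ^ (e K) * R K) := by ring
        _ ≤ c ^ K * b ^ (N * (e 0 - e K)) * (c * R (K + 1)) := Nat.mul_le_mul_left _ h1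
        _ = c ^ (K + 1) * b ^ (N * (e 0 - e (K + 1))) * R (K + 1) := by rw [h]; ring
    · have h1 := hmono K (by omega)
      have hN := heN K (by omega)
      have h2 : b ^ (e K) * b ^ (N * (e 0 - e K)) ≤ b ^ (N * (e 0 - e (K + 1))) := by
        rw [← pow_add]
        apply Nat.pow_le_pow_right hb
        have h3 : e 0 - e K + 1 ≤ e 0 - e (K + 1) := by omega
        calc e K + N * (e 0 - e K) ≤ N + N * (e 0 - e K) := by omega
          _ = N * (e 0 - e K + 1) := by ring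
          _ ≤ N * (e 0 - e (K + 1)) := Nat.mul_le_mul_left _ h3
      have h3 : c ^ K ≤ c ^ (K + 1) := Nat.pow_le_pow_right hc (by omega)
      calc b ^ (∑ k ∈ range K, e k) * b ^ (e K) * R 0
          = b ^ (e K) * (b ^ (∑ k ∈ range K, e k) * R 0) := by ring
        _ ≤ b ^ (e K) * (c ^ K * b ^ (N * (e 0 - e K)) * R K) := Nat.mul_le_mul_left _ ih1
        _ = c ^ K * (b ^ (e K) * b ^ (N * (e 0 - e K))) * R K := by ring
        _ ≤ c ^ (K + 1) * b ^ (N * (e 0 - e (K + 1))) * R (K + 1) :=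
          Nat.mul_le_mul (Nat.mul_le_mul h3 h2) h1

/-- (a') the same with the crude loss `b ^ (N * N)`, and `R 0 ≥ 1`. -/
theorem pow_sum_le_rank' (b c N : ℕ) (hb : 1 ≤ b) (hc : 1 ≤ c) (e R : ℕ → ℕ) (K : ℕ)
    (he : ∀ k < K, e (k + 1) ≤ e k) (heN : ∀ k ≤ K, e k ≤ N)
    (hst : ∀ k < K, e (k + 1) = e k → b ^ (e k) * R k ≤ c * R (k + 1))
    (hmono : ∀ k < K, R k ≤ R (k + 1)) (h0 : 1 ≤ R 0) :
    b ^ (∑ k ∈ range K, e k) ≤ c ^ K * b ^ (N * N) * R K := by
  obtain ⟨h1, -⟩ := pow_sum_le_rank b c N hb hc e R K he heN hst hmono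
  have h2 : b ^ (N * (e 0 - e K)) ≤ b ^ (N * N) := by
    apply Nat.pow_le_pow_right hb
    apply Nat.mul_le_mul_left
    have := heN 0 (Nat.zero_le _)
    omega
  calc b ^ (∑ k ∈ range K, e k) ≤ b ^ (∑ k ∈ range K, e k) * R 0 :=
        Nat.le_mul_of_pos_right _ h0
    _ ≤ c ^ K * b ^ (N * (e 0 - e K)) * R K := h1
    _ ≤ c ^ K * b ^ (N * N) * R K :=
        Nat.mul_le_mul_right _ (Nat.mul_le_mul_left _ h2)

/-- (b) sum of the slopes = sum of the logarithms of the degrees. -/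
theorem sum_slopes (N K : ℕ) (v : ℕ → ℕ) (hv : ∀ k < K, v k ≤ N) :
    ∑ k ∈ range K, (N - v k) =
      ∑ j ∈ range N, ((range K).filter (fun k => v k ≤ j)).card := by
  have h1 : ∀ k ∈ range K, N - v k = ∑ j ∈ range N, if v k ≤ j then 1 else 0 := by
    intro k hk
    have hk' := hv k (Finset.mem_range.1 hk)
    rw [← Finset.sum_filter, Finset.sum_const, smul_eq_mul, mul_one]
    have : (range N).filter (fun j => v k ≤ j) = Finset.Ico (v k) N := by
      ext j
      simp only [Finset.mem_filter, Finset.mem_range, Finset.mem_Ico]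
      omega
    rw [this, Nat.card_Ico]
  rw [Finset.sum_congr rfl h1, Finset.sum_comm]
  apply Finset.sum_congr rfl
  intro j _
  rw [← Finset.sum_filter, Finset.sum_const, smul_eq_mul, mul_one]

/-- (b') product form: the degrees `δ_j = b ^ #{k < K | v k ≤ j}`. -/
theorem prod_degrees (b N K : ℕ) (v : ℕ → ℕ) (hv : ∀ k < K, v k ≤ N) :
    ∏ j ∈ range N, b ^ ((range K).filter (fun k => v k ≤ j)).card =
      b ^ (∑ k ∈ range K, (N - v k)) := by
  rw [Finset.prod_pow_eq_pow_sum, sum_slopes N K v hv]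

/-- (b'') for nondecreasing `v` the number `#{k < K | v k ≤ j}` is the first scale `< K` at which
`v` exceeds `j` (if there is one). -/
theorem lt_at_count (K : ℕ) (v : ℕ → ℕ) (hv : ∀ k l : ℕ, k ≤ l → l < K → v k ≤ v l) (j : ℕ)
    (h : ((range K).filter (fun k => v k ≤ j)).card < K) :
    j < v ((range K).filter (fun k => v k ≤ j)).card := by
  by_contra hcon
  push Not at hcon
  set q := ((range K).filter (fun k => v k ≤ j)).card with hq
  have hsub : range (q + 1) ⊆ (range K).filter (fun k => v k ≤ j) := by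
    intro k hk
    have hk' : k ≤ q := Nat.lt_succ_iff.1 (Finset.mem_range.1 hk)
    exact Finset.mem_filter.2 ⟨Finset.mem_range.2 (by omega), (hv k q hk' h).trans hcon⟩
  have := Finset.card_le_card hsub
  rw [Finset.card_range] at this
  omega

/-- and it is at most every scale at which `v` exceeds `j`. -/
theorem count_le (K : ℕ) (v : ℕ → ℕ) (hv : ∀ k l : ℕ, k ≤ l → l < K → v k ≤ v l) (j k : ℕ)
    (h : j < v k) : ((range K).filter (fun l => v l ≤ j)).card ≤ k := by
  have hsub : (range K).filter (fun l => v l ≤ j) ⊆ range k := by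
    intro l hl
    obtain ⟨hl1, hl2⟩ := Finset.mem_filter.1 hl
    rw [Finset.mem_range]
    by_contra hcon
    push Not at hcon
    have := hv k l hcon (Finset.mem_range.1 hl1)
    omega
  have := Finset.card_le_card hsub
  rwa [Finset.card_range] at this

/-- (c) **tight window from the rank inequality**: `b` base of the scales, `t` the number of
distances, `b ^ K ≥ t ^ (1 + 1/m)`. -/
theorem tight_window_of_rank (b t K m C N W : ℕ) (hb : 2 ≤ b)
    (e s₁ s₂ : ℕ → ℕ)
    (he : ∀ k l : ℕ, k ≤ l → l < K → e l ≤ e k)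
    (h₁ : ∀ k l : ℕ, k ≤ l → l < K → s₁ l ≤ s₁ k)
    (h₂ : ∀ k l : ℕ, k ≤ l → l < K → s₂ l ≤ s₂ k)
    (heN : e 0 ≤ N) (h₁N : s₁ 0 ≤ N) (h₂N : s₂ 0 ≤ N)
    (hge : ∀ k < K, s₁ k + s₂ k ≤ e k)
    (hrank : b ^ (∑ k ∈ range K, e k) ≤ t * b ^ (∑ k ∈ range K, (s₁ k + s₂ k) + C))
    (ht : t ^ (m + 1) ≤ b ^ (m * K))
    (hK : (m + 1) * (C + (3 * N + 1) * W) ≤ K) :
    ∃ k₀, k₀ + W ≤ K ∧ ∀ k, k₀ ≤ k → k < k₀ + W →
      e k = e k₀ ∧ s₁ k = s₁ k₀ ∧ s₂ k = s₂ k₀ ∧ e k = s₁ k + s₂ k := by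
  set Se := ∑ k ∈ range K, e k with hSe
  set Ss := ∑ k ∈ range K, (s₁ k + s₂ k) with hSs
  have h1 : b ^ ((m + 1) * Se) ≤ b ^ (m * K + (m + 1) * (Ss + C)) := by
    calc b ^ ((m + 1) * Se) = (b ^ Se) ^ (m + 1) := by rw [← pow_mul, mul_comm]
      _ ≤ (t * b ^ (Ss + C)) ^ (m + 1) := Nat.pow_le_pow_left hrank _
      _ = t ^ (m + 1) * b ^ ((m + 1) * (Ss + C)) := by
          rw [mul_pow, ← pow_mul, mul_comm (Ss + C)]
      _ ≤ b ^ (m * K) * b ^ ((m + 1) * (Ss + C)) := Nat.mul_le_mul_right _ ht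
      _ = b ^ (m * K + (m + 1) * (Ss + C)) := by rw [pow_add]
  have h2 : (m + 1) * Se ≤ m * K + (m + 1) * (Ss + C) :=
    (Nat.pow_le_pow_iff_right (by omega)).1 h1
  have hSle : Ss ≤ Se := by
    apply Finset.sum_le_sum
    intro k hk
    exact hge k (Finset.mem_range.1 hk)
  obtain ⟨G, hG⟩ := Nat.exists_eq_add_of_le hSle
  have h3 : (m + 1) * G ≤ m * K + (m + 1) * C := by
    have e1 : (m + 1) * Se = (m + 1) * Ss + (m + 1) * G := by rw [hG]; ring
    have e2 : (m + 1) * (Ss + C) = (m + 1) * Ss + (m + 1) * C := by ring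
    omega
  have h4 : G + (3 * N + 1) * W ≤ K := by
    have h5 : (m + 1) * (G + (3 * N + 1) * W) ≤ (m + 1) * K := by
      have e1 : (m + 1) * (G + (3 * N + 1) * W) =
          (m + 1) * G + (m + 1) * ((3 * N + 1) * W) := by ring
      have e2 : (m + 1) * (C + (3 * N + 1) * W) =
          (m + 1) * C + (m + 1) * ((3 * N + 1) * W) := by ring
      have e3 : (m + 1) * K = m * K + K := by ring
      omega
    exact Nat.le_of_mul_le_mul_left h5 (by omega)
  apply exists_tight_window e s₁ s₂ K W N G he h₁ h₂ heN h₁N h₂N hge _ h4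
  omega

end Vale.Agent.P054.T2.H307
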