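import Mathlib

/-!
# Uniformisation by one maximum (P054, T2 project, row [R1])

`E` is a finite set of edges, `c j A e` (for `j` in a finite index set `J`, `A ⊆ E`, `e ∈ A`) are
natural numbers `≤ N` which increase when the set `A` shrinks (think: rank of the gradients at `e`
of the polynomials of a given degree vanishing on `A`).  A subset `E'` maximising
`|A| * β ^ (sum of minima)` is uniform.
-/

namespace Vale.Agent.P054.T2.H307

open Finset

variable {ι κ S : Type*} [DecidableEq ι]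

/-- The minimum of `c j A` over the nonempty set `A` (`0` for the empty set). -/
noncomputable def vmin (c : κ → Finset ι → ι → ℕ) (j : κ) (A : Finset ι) : ℕ :=
  if h : A.Nonempty then A.inf' h (c j A) else 0

omit [DecidableEq ι] in
theorem vmin_le (c : κ → Finset ι → ι → ℕ) (j : κ) {A : Finset ι} {e : ι} (he : e ∈ A) :
    vmin c j A ≤ c j A e := by
  have h : A.Nonempty := ⟨e, he⟩
  unfold vmin
  rw [dif_pos h]
  exact Finset.inf'_le _ he

omit [DecidableEq ι] in
theorem le_vmin (c : κ → Finset ι → ι → ℕ) (j : κ) {A : Finset ι} (hA : A.Nonempty) {m : ℕ}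
    (h : ∀ e ∈ A, m ≤ c j A e) : m ≤ vmin c j A := by
  unfold vmin
  rw [dif_pos hA]
  exact Finset.le_inf' hA _ h

/-- `E'` is `β`-uniform for the functions `c j`, `j ∈ J`, with values `v j`. -/
structure IsUnif (c : κ → Finset ι → ι → ℕ) (J : Finset κ) (β : ℕ) (E' : Finset ι)
    (v : κ → ℕ) : Prop where
  /-- all values on subsets are at least `v` -/
  le : ∀ j ∈ J, ∀ A ⊆ E', ∀ e ∈ A, v j ≤ c j A e
  /-- a set on which one of the values is larger everywhere has density at most `1 / β` -/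
  small : ∀ j ∈ J, ∀ A ⊆ E', (∀ e ∈ A, v j < c j A e) → β * A.card ≤ E'.card

omit [DecidableEq ι] in
/-- **[R1] Uniformisation by one maximum.** -/
theorem exists_unif (E : Finset ι) (hE : E.Nonempty) (J : Finset κ)
    (c : κ → Finset ι → ι → ℕ) (N β : ℕ) (hβ : 1 ≤ β)
    (hN : ∀ j ∈ J, ∀ A ⊆ E, ∀ e ∈ A, c j A e ≤ N)
    (hmono : ∀ j ∈ J, ∀ A B : Finset ι, A ⊆ B → B ⊆ E → ∀ e ∈ A, c j B e ≤ c j A e) :
    ∃ E' ⊆ E, E'.Nonempty ∧ ∃ v : κ → ℕ, (∀ j ∈ J, v j ≤ N) ∧
      E.card ≤ β ^ (N * J.card) * E'.card ∧ IsUnif c J β E' v := by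
  classical
  set F : Finset (Finset ι) := E.powerset.filter (fun A => A.Nonempty) with hF
  have hFne : F.Nonempty := ⟨E, by simp [hF, hE]⟩
  obtain ⟨E', hE'F, hmax⟩ := F.exists_max_image
    (fun A => A.card * β ^ (∑ j ∈ J, vmin c j A)) hFne
  have hE' : E' ⊆ E ∧ E'.Nonempty := by
    have := Finset.mem_filter.1 hE'F
    exact ⟨Finset.mem_powerset.1 this.1, this.2⟩
  have hvN : ∀ j ∈ J, vmin c j E' ≤ N := by
    intro j hj
    obtain ⟨e, he⟩ := hE'.2
    exact (vmin_le c j he).trans (hN j hj E' hE'.1 e he)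
  have hmem : ∀ A : Finset ι, A ⊆ E → A.Nonempty → A ∈ F := by
    intro A hA hAn
    exact Finset.mem_filter.2 ⟨Finset.mem_powerset.2 hA, hAn⟩
  refine ⟨E', hE'.1, hE'.2, fun j => vmin c j E', hvN, ?_, ?_, ?_⟩
  · have h1 := hmax E (hmem E (Finset.Subset.refl _) hE)
    have h2 : E.card ≤ E.card * β ^ (∑ j ∈ J, vmin c j E) :=
      Nat.le_mul_of_pos_right _ (Nat.pow_pos hβ)
    have h3 : β ^ (∑ j ∈ J, vmin c j E') ≤ β ^ (N * J.card) := by
      apply Nat.pow_le_pow_right hβ
      calc ∑ j ∈ J, vmin c j E' ≤ ∑ _j ∈ J, N := Finset.sum_le_sum hvN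
        _ = N * J.card := by simp [mul_comm]
    calc E.card ≤ E'.card * β ^ (∑ j ∈ J, vmin c j E') := h2.trans h1
      _ ≤ E'.card * β ^ (N * J.card) := Nat.mul_le_mul_left _ h3
      _ = β ^ (N * J.card) * E'.card := mul_comm _ _
  · intro j hj A hA e he
    exact (vmin_le c j (hA he)).trans (hmono j hj A E' hA hE'.1 e he)
  · intro j hj A hA hlt
    rcases A.eq_empty_or_nonempty with rfl | hAn
    · simp
    have hAE : A ⊆ E := hA.trans hE'.1
    have hge : ∀ i ∈ J, vmin c i E' ≤ vmin c i A := by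
      intro i hi
      apply le_vmin c i hAn
      intro e he
      exact (vmin_le c i (hA he)).trans (hmono i hi A E' hA hE'.1 e he)
    have hgt : vmin c j E' + 1 ≤ vmin c j A := le_vmin c j hAn (fun e he => hlt e he)
    have hsum : (∑ i ∈ J, vmin c i E') + 1 ≤ ∑ i ∈ J, vmin c i A := by
      rw [← Finset.add_sum_erase J _ hj, ← Finset.add_sum_erase J (fun i => vmin c i A) hj]
      have : ∑ i ∈ J.erase j, vmin c i E' ≤ ∑ i ∈ J.erase j, vmin c i A :=
        Finset.sum_le_sum (fun i hi => hge i (Finset.mem_of_mem_erase hi))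
      omega
    have h1 := hmax A (hmem A hAE hAn)
    have h2 : β ^ ((∑ i ∈ J, vmin c i E') + 1) ≤ β ^ (∑ i ∈ J, vmin c i A) :=
      Nat.pow_le_pow_right hβ hsum
    have h3 : (β * A.card) * β ^ (∑ i ∈ J, vmin c i E') ≤
        E'.card * β ^ (∑ i ∈ J, vmin c i E') := by
      calc (β * A.card) * β ^ (∑ i ∈ J, vmin c i E')
          = A.card * β ^ ((∑ i ∈ J, vmin c i E') + 1) := by ring
        _ ≤ A.card * β ^ (∑ i ∈ J, vmin c i A) := Nat.mul_le_mul_left _ h2
        _ ≤ _ := h1
    exact Nat.le_of_mul_le_mul_right h3 (Nat.pow_pos hβ)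

section cor

variable {c : κ → Finset ι → ι → ℕ} {J : Finset κ} {β : ℕ} {E' : Finset ι} {v : κ → ℕ}

omit [DecidableEq ι] in
/-- restriction of the index set -/
theorem IsUnif.mono_index (h : IsUnif c J β E' v) {J' : Finset κ} (hJ : J' ⊆ J) :
    IsUnif c J' β E' v :=
  ⟨fun j hj => h.le j (hJ hj), fun j hj => h.small j (hJ hj)⟩

omit [DecidableEq ι] in
/-- (iii) for one index and the exceptional part of any subset -/
theorem IsUnif.card_ne_one (h : IsUnif c J β E' v)
    (hmono : ∀ j ∈ J, ∀ A B : Finset ι, A ⊆ B → B ⊆ E' → ∀ e ∈ A, c j B e ≤ c j A e)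
    {j : κ} (hj : j ∈ J) {A : Finset ι} (hA : A ⊆ E') :
    β * (A.filter (fun e => c j A e ≠ v j)).card ≤ E'.card := by
  apply h.small j hj _ ((Finset.filter_subset _ _).trans hA)
  intro e he
  have he' := Finset.mem_filter.1 he
  have h1 : v j ≤ c j A e := h.le j hj A hA e he'.1
  have h2 : v j < c j A e := lt_of_le_of_ne h1 (Ne.symm he'.2)
  exact lt_of_lt_of_le h2 (hmono j hj _ A (Finset.filter_subset _ _) hA e he)

/-- (iv) the exceptional part of any subset, all indices together -/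
theorem IsUnif.card_ne (h : IsUnif c J β E' v)
    (hmono : ∀ j ∈ J, ∀ A B : Finset ι, A ⊆ B → B ⊆ E' → ∀ e ∈ A, c j B e ≤ c j A e)
    {A : Finset ι} (hA : A ⊆ E') :
    β * (A.filter (fun e => ∃ j ∈ J, c j A e ≠ v j)).card ≤ J.card * E'.card := by
  classical
  have hsub : A.filter (fun e => ∃ j ∈ J, c j A e ≠ v j) ⊆
      J.biUnion (fun j => A.filter (fun e => c j A e ≠ v j)) := by
    intro e he
    obtain ⟨heA, j, hj, hne⟩ := Finset.mem_filter.1 he
    exact Finset.mem_biUnion.2 ⟨j, hj, Finset.mem_filter.2 ⟨heA, hne⟩⟩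
  calc β * (A.filter (fun e => ∃ j ∈ J, c j A e ≠ v j)).card
      ≤ β * ∑ j ∈ J, (A.filter (fun e => c j A e ≠ v j)).card :=
        Nat.mul_le_mul_left _ ((Finset.card_le_card hsub).trans Finset.card_biUnion_le)
    _ = ∑ j ∈ J, β * (A.filter (fun e => c j A e ≠ v j)).card := by rw [Finset.mul_sum]
    _ ≤ ∑ _j ∈ J, E'.card := Finset.sum_le_sum (fun j hj => h.card_ne_one hmono hj hA)
    _ = J.card * E'.card := by simp

/-- (v) **chain**: starting from any `A₀ ⊆ E'` there is a decreasing sequence of sets, each losing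
at most `|J| |E'| / β` points, such that all values of `A i` at points of `A (i+1)` are `v`. -/
theorem IsUnif.exists_chain (h : IsUnif c J β E' v)
    (hmono : ∀ j ∈ J, ∀ A B : Finset ι, A ⊆ B → B ⊆ E' → ∀ e ∈ A, c j B e ≤ c j A e)
    {A₀ : Finset ι} (hA₀ : A₀ ⊆ E') :
    ∃ A : ℕ → Finset ι, A 0 = A₀ ∧ (∀ i, A (i + 1) ⊆ A i) ∧ (∀ i, A i ⊆ E') ∧
      (∀ i, ∀ e ∈ A (i + 1), ∀ j ∈ J, c j (A i) e = v j) ∧
      (∀ i, β * A₀.card ≤ β * (A i).card + i * (J.card * E'.card)) := by
  classical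
  let A : ℕ → Finset ι := fun n =>
    Nat.rec A₀ (fun _ B => B.filter (fun e => ∀ j ∈ J, c j B e = v j)) n
  have hsucc : ∀ i, A (i + 1) = (A i).filter (fun e => ∀ j ∈ J, c j (A i) e = v j) :=
    fun i => rfl
  have hsub : ∀ i, A i ⊆ E' := by
    intro i
    induction i with
    | zero => exact hA₀
    | succ n ih => rw [hsucc]; exact (Finset.filter_subset _ _).trans ih
  have hstep : ∀ i, β * (A i).card ≤ β * (A (i + 1)).card + J.card * E'.card := by
    intro i
    have h1 := h.card_ne hmono (hsub i)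
    have h2 : (A i).card = ((A i).filter (fun e => ∀ j ∈ J, c j (A i) e = v j)).card +
        ((A i).filter (fun e => ∃ j ∈ J, c j (A i) e ≠ v j)).card := by
      rw [← Finset.card_filter_add_card_filter_not (s := A i)
        (p := fun e => ∀ j ∈ J, c j (A i) e = v j)]
      congr 2
      ext e
      simp only [Finset.mem_filter]
      constructor
      · rintro ⟨h1, h2⟩
        refine ⟨h1, ?_⟩
        by_contra hcon
        apply h2
        intro j hj
        by_contra hne
        exact hcon ⟨j, hj, hne⟩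
      · rintro ⟨h1, j, hj, hne⟩
        exact ⟨h1, fun hall => hne (hall j hj)⟩
    rw [hsucc]
    calc β * (A i).card = β * ((A i).filter (fun e => ∀ j ∈ J, c j (A i) e = v j)).card +
          β * ((A i).filter (fun e => ∃ j ∈ J, c j (A i) e ≠ v j)).card := by
            rw [← mul_add, ← h2]
      _ ≤ _ := by omega
  refine ⟨A, rfl, ?_, hsub, ?_, ?_⟩
  · intro i; rw [hsucc]; exact Finset.filter_subset _ _
  · intro i e he
    rw [hsucc] at he
    exact (Finset.mem_filter.1 he).2
  · intro i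
    induction i with
    | zero => simp [A]
    | succ n ih =>
      have h1 := hstep n
      have h2 : (n + 1) * (J.card * E'.card) = n * (J.card * E'.card) + J.card * E'.card := by
        ring
      omega

/-- (vi) **leaf form**: `p : ι → S` is the map edge ↦ leaf and `c j A e` depends only on the part of
`A` in the leaf of `e`.  Then the leaves in which some subset of relative density `> 1 / β'`
has a larger value carry at most `β' / β` of the edges. -/
theorem IsUnif.leaf [DecidableEq S] (h : IsUnif c J β E' v) (p : ι → S)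
    {j : κ} (hj : j ∈ J)
    (hleaf : ∀ A ⊆ E', ∀ e ∈ A, c j A e = c j (A.filter (fun x => p x = p e)) e)
    (β' : ℕ) :
    β * (E'.filter (fun e => ∃ B ⊆ E'.filter (fun x => p x = p e), (∀ x ∈ B, v j < c j B x) ∧
      (E'.filter (fun x => p x = p e)).card < β' * B.card)).card ≤ β' * E'.card := by
  classical
  set fib : S → Finset ι := fun s => E'.filter (fun x => p x = s) with hfib
  let P : S → Finset ι → Prop := fun s B =>
    B ⊆ fib s ∧ (∀ x ∈ B, v j < c j B x) ∧ (fib s).card < β' * B.card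
  set Bad : Finset S := (E'.image p).filter (fun s => ∃ B, P s B) with hBad
  have hch : ∀ s : S, ∃ B : Finset ι, s ∈ Bad → P s B := by
    intro s
    by_cases hs : s ∈ Bad
    · obtain ⟨B, hB⟩ := (Finset.mem_filter.1 hs).2
      exact ⟨B, fun _ => hB⟩
    · exact ⟨∅, fun h => absurd h hs⟩
  choose B hB using hch
  set A : Finset ι := Bad.biUnion B with hA
  have hdisj : ∀ s ∈ Bad, ∀ s' ∈ Bad, s ≠ s' → Disjoint (B s) (B s') := by
    intro s hs s' hs' hne
    rw [Finset.disjoint_left]
    intro x hx hx'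
    have h1 := (Finset.mem_filter.1 ((hB s hs).1 hx)).2
    have h2 := (Finset.mem_filter.1 ((hB s' hs').1 hx')).2
    exact hne (h1.symm.trans h2)
  have hAsub : A ⊆ E' := by
    intro x hx
    obtain ⟨s, hs, hxs⟩ := Finset.mem_biUnion.1 hx
    exact (Finset.mem_filter.1 ((hB s hs).1 hxs)).1
  have hAfib : ∀ s ∈ Bad, A.filter (fun x => p x = s) = B s := by
    intro s hs
    ext x
    simp only [Finset.mem_filter]
    constructor
    · rintro ⟨hx, hpx⟩
      obtain ⟨s', hs', hxs'⟩ := Finset.mem_biUnion.1 hx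
      have h2 := (Finset.mem_filter.1 ((hB s' hs').1 hxs')).2
      have : s' = s := h2.symm.trans hpx
      rwa [this] at hxs'
    · intro hx
      exact ⟨Finset.mem_biUnion.2 ⟨s, hs, hx⟩, (Finset.mem_filter.1 ((hB s hs).1 hx)).2⟩
  have hAval : ∀ e ∈ A, v j < c j A e := by
    intro e he
    obtain ⟨s, hs, hes⟩ := Finset.mem_biUnion.1 he
    have hpe : p e = s := (Finset.mem_filter.1 ((hB s hs).1 hes)).2
    rw [hleaf A hAsub e he, hpe, hAfib s hs]
    exact (hB s hs).2.1 e hes
  have h1 : β * A.card ≤ E'.card := h.small j hj A hAsub hAval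
  have h2 : A.card = ∑ s ∈ Bad, (B s).card := by
    rw [hA, Finset.card_biUnion]
    intro s hs s' hs' hne
    exact hdisj s hs s' hs' hne
  have h3 : (E'.filter (fun e => ∃ B ⊆ E'.filter (fun x => p x = p e),
      (∀ x ∈ B, v j < c j B x) ∧
      (E'.filter (fun x => p x = p e)).card < β' * B.card)) ⊆ Bad.biUnion fib := by
    intro e he
    obtain ⟨heE, B', hB', hval, hcard⟩ := Finset.mem_filter.1 he
    refine Finset.mem_biUnion.2 ⟨p e, ?_, Finset.mem_filter.2 ⟨heE, rfl⟩⟩
    exact Finset.mem_filter.2 ⟨Finset.mem_image_of_mem p heE, B', hB', hval, hcard⟩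
  have h4 : (Bad.biUnion fib).card ≤ β' * A.card := by
    calc (Bad.biUnion fib).card ≤ ∑ s ∈ Bad, (fib s).card := Finset.card_biUnion_le
      _ ≤ ∑ s ∈ Bad, β' * (B s).card :=
        Finset.sum_le_sum (fun s hs => ((hB s hs).2.2).le)
      _ = β' * A.card := by rw [h2, Finset.mul_sum]
  calc β * _ ≤ β * (β' * A.card) :=
        Nat.mul_le_mul_left _ ((Finset.card_le_card h3).trans h4)
    _ = β' * (β * A.card) := by ring
    _ ≤ β' * E'.card := Nat.mul_le_mul_left _ h1

end cor

end Vale.Agent.P054.T2.H307
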