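import Vale.Agent.P054.T2.H307.UnifLo
import Vale.Agent.P054.T2.H930.TanEdge

/-!
# The families of section A (P054, T2 project)

Edges `e = (s, r)`, `s = (ζ, θ)`.  Families of function spaces:
`F` (points `g = meet s r`), `L1` (leaf of `s`, coordinate `u = mu s r`), `L2` (leaf of `r`),
`H1 k` (`(g, s)`), `H2 k` (`(g, r)`), `T k` (`(g, s, r)`), weights `1` on `g` and `b ^ k` on `s, r`;
`V1 k`, `V2 k`, `TV k`, `TS k`, `TR k`: ranks of the vertical parts of the gradients.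
-/

namespace Vale.Agent.P054.T2.H307

open Finset MvPolynomial Module
open Vale.Agent.P054.T2.H686 (Crd leaf mu meet Qf)
open Vale.Agent.P054.T2.H580 (Vw IsFilt rkF)
open Vale.Agent.P054.T2.H930 (Pt ptc edgePt)

section general

variable {ι κ K : Type*} [Field K]

/-- rank of `L ∘ grad` at `e` for the fibre of `e` in `A`, level `T` -/
noncomputable def gfL {σ S M : Type*} [AddCommGroup M] [Module K M] (x : ι → σ → K) (p : ι → S)
    (V : ℕ → Submodule K (MvPolynomial σ K)) (L : (σ → K) →ₗ[K] M) (T : ℕ) (A : Finset ι)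
    (e : ι) : ℕ :=
  grL x (fib p A (p e)) (V T) L (x e)

theorem gfL_id {σ S : Type*} (x : ι → σ → K) (p : ι → S)
    (V : ℕ → Submodule K (MvPolynomial σ K)) (T : ℕ) (A : Finset ι) (e : ι) :
    gfL x p V LinearMap.id T A e = gfr x p V T A e := rfl

theorem gfL_mono_set {σ S M : Type*} [Fintype σ] [AddCommGroup M] [Module K M] (x : ι → σ → K)
    (p : ι → S) (V : ℕ → Submodule K (MvPolynomial σ K)) (L : (σ → K) →ₗ[K] M) (T : ℕ)
    {A B : Finset ι} (h : A ⊆ B) (e : ι) :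
    gfL x p V L T B e ≤ gfL x p V L T A e :=
  grL_mono (fib_mono h _) le_rfl _ _

theorem gfL_le {σ S M : Type*} [Fintype σ] [AddCommGroup M] [Module K M] (x : ι → σ → K)
    (p : ι → S) (V : ℕ → Submodule K (MvPolynomial σ K)) (L : (σ → K) →ₗ[K] M) (T : ℕ)
    (A : Finset ι) (e : ι) : gfL x p V L T A e ≤ Fintype.card σ := grL_le _ _ _ _ _

/-- a family with a linear map `L` in front of the gradients -/
def IsFamL {σ S M : Type*} [AddCommGroup M] [Module K M] (c : κ → Finset ι → ι → ℕ)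
    (J : Finset κ) (idx : ℕ → κ) (K' : ℕ) (x : ι → σ → K) (p : ι → S)
    (V : ℕ → Submodule K (MvPolynomial σ K)) (L : (σ → K) →ₗ[K] M) (a b : ℕ) : Prop :=
  ∀ j ≤ K', idx j ∈ J ∧ ∀ A e, c (idx j) A e = gfL x p V L (a * b ^ j) A e

theorem IsFamL.isFam {σ S : Type*} {c : κ → Finset ι → ι → ℕ} {J : Finset κ} {idx : ℕ → κ}
    {K' : ℕ} {x : ι → σ → K} {p : ι → S} {V : ℕ → Submodule K (MvPolynomial σ K)} {a b : ℕ}
    (h : IsFamL c J idx K' x p V (LinearMap.id : (σ → K) →ₗ[K] (σ → K)) a b) :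
    IsFam c J idx K' x p V a b := h

/-- the values `v` of a family are nondecreasing along the levels -/
theorem IsUnif.famL_mono {σ S M : Type*} [Fintype σ] [AddCommGroup M] [Module K M]
    {c : κ → Finset ι → ι → ℕ} {J : Finset κ} {v : κ → ℕ}
    {β : ℕ} {E' : Finset ι} (h : IsUnif c J β E' v) (hE : E'.Nonempty)
    (hβ : 1 < β)
    {V : ℕ → Submodule K (MvPolynomial σ K)} (hV : Monotone V)
    {x : ι → σ → K} {p : ι → S} {L : (σ → K) →ₗ[K] M} {a b : ℕ} (hb : 1 ≤ b) {idx : ℕ → κ}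
    {K' : ℕ} (hF : IsFamL c J idx K' x p V L a b)
    {i j : ℕ} (hij : i ≤ j) (hj : j ≤ K') : v (idx i) ≤ v (idx j) := by
  by_contra hcon
  push Not at hcon
  have h1 := h.small (idx j) (hF j hj).1 E' (Finset.Subset.refl _) (fun e he => by
    refine hcon.trans_le ((h.le (idx i) (hF i (hij.trans hj)).1 E' (Finset.Subset.refl _) e
      he).trans ?_)
    rw [(hF i (hij.trans hj)).2, (hF j hj).2]
    exact grL_mono (Finset.Subset.refl _)
      (hV (Nat.mul_le_mul_left _ (Nat.pow_le_pow_right hb hij))) _ _)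
  have h2 : 0 < E'.card := hE.card_pos
  have h3 : 2 * E'.card ≤ β * E'.card := Nat.mul_le_mul_right _ hβ
  omega

/-- **(SYS) for a family over a uniform set**: in every fibre, a system with `L`-independent
gradients at all edges of the fibre. -/
theorem IsUnif.sys {σ S M : Type*} [Infinite K] [Fintype σ] [AddCommGroup M] [Module K M]
    {c : κ → Finset ι → ι → ℕ} {J : Finset κ} {v : κ → ℕ}
    {β : ℕ} {E' : Finset ι} (h : IsUnif c J β E' v) (hE : E'.Nonempty)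
    (hβ : 1 < β)
    {V : ℕ → Submodule K (MvPolynomial σ K)} (hV : Monotone V)
    {x : ι → σ → K} {p : ι → S} {L : (σ → K) →ₗ[K] M} {a b : ℕ} (hb : 1 ≤ b) {idx : ℕ → κ}
    {K' : ℕ} (hF : IsFamL c J idx K' x p V L a b) (s : S) :
    ∃ f : ℕ → MvPolynomial σ K,
      (∀ j < v (idx K'), f j ∈ van x (fib p E' s)
        (V (a * b ^ ((range (K' + 1)).filter (fun k => v (idx k) ≤ j)).card))) ∧
      (∀ k ≤ K', ∀ j < v (idx k), f j ∈ van x (fib p E' s) (V (a * b ^ k))) ∧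
      ∀ e ∈ fib p E' s, LinearIndependent K (fun j : Fin (v (idx K')) => L (grad (x e) (f j))) := by
  obtain ⟨f, h1, h2, h3⟩ := exists_sys x (A₀ := fib p E' s) (A₁ := fib p E' s)
    (fun k => V (a * b ^ k)) L (K' + 1) (Nat.succ_pos _)
    (fun k l hkl _ => hV (Nat.mul_le_mul_left _ (Nat.pow_le_pow_right hb hkl)))
    (fun k => v (idx k))
    (fun k l hkl hl => h.famL_mono hE hβ hV hb hF hkl (Nat.lt_succ_iff.1 hl))
    (by
      intro k hk e he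
      have hk' : k ≤ K' := Nat.lt_succ_iff.1 hk
      have h4 := mem_fib.1 he
      have h5 := h.le (idx k) (hF k hk').1 E' (Finset.Subset.refl _) e h4.1
      rw [(hF k hk').2] at h5
      unfold gfL at h5
      rwa [h4.2] at h5)
  simp only [Nat.add_sub_cancel] at h1 h3
  exact ⟨f, h1, fun k hk => h2 k (Nat.lt_succ_of_le hk), h3⟩

end general

/-- names of the families -/
inductive FI
  | F | L1 | L2
  | H1 (k : ℕ) | H2 (k : ℕ) | V1 (k : ℕ) | V2 (k : ℕ)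
  | T (k : ℕ) | TV (k : ℕ) | TS (k : ℕ) | TR (k : ℕ)
  deriving DecidableEq

variable {K : Type*} [Field K] {n : ℕ}

/-- points `s = (ζ, θ)` -/
abbrev ZK (n : ℕ) (K : Type*) := (Fin (n + 1) → K) × (Fin (n + 1) → K)

/-- edges -/
abbrev Ed (n : ℕ) (K : Type*) := ZK n K × ZK n K

noncomputable def xF (e : Ed n K) : Crd n → K := meet e.1 e.2
noncomputable def xL (e : Ed n K) : Fin n → K := mu e.1 e.2
noncomputable def xH1 (e : Ed n K) : Crd n ⊕ Pt n → K := Sum.elim (meet e.1 e.2) (ptc e.1)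
noncomputable def xH2 (e : Ed n K) : Crd n ⊕ Pt n → K := Sum.elim (meet e.1 e.2) (ptc e.2)
noncomputable def xT (e : Ed n K) : Crd n ⊕ (Pt n ⊕ Pt n) → K := edgePt e.1 e.2

/-- weights `1` on the left block, `W` on the right block -/
def wB {α β : Type*} (W : ℕ) : α ⊕ β → ℕ := Sum.elim (fun _ => 1) (fun _ => W)

/-- restriction of a vector to the coordinates in the image of `f` -/
def rst {α β : Type*} (f : β → α) : (α → K) →ₗ[K] (β → K) := LinearMap.funLeft K K f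

/-- the functions `c` of one family at the level `i`, base `b` -/
noncomputable def cB (n : ℕ) (K : Type*) [Field K] (b i : ℕ) (f : FI)
    (A : Finset (Ed n K)) (e : Ed n K) : ℕ :=
  match f with
  | FI.F => gfL xF (fun _ => ()) (restrictTotalDegree (Crd n) K) LinearMap.id (1 * b ^ i) A e
  | FI.L1 => gfL xL Prod.fst (restrictTotalDegree (Fin n) K) LinearMap.id (1 * b ^ i) A e
  | FI.L2 => gfL xL Prod.snd (restrictTotalDegree (Fin n) K) LinearMap.id (1 * b ^ i) A e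
  | FI.H1 k => gfL xH1 (fun _ => ()) (Vw K (wB (b ^ k))) LinearMap.id (b ^ k * b ^ i) A e
  | FI.H2 k => gfL xH2 (fun _ => ()) (Vw K (wB (b ^ k))) LinearMap.id (b ^ k * b ^ i) A e
  | FI.V1 k => gfL xH1 (fun _ => ()) (Vw K (wB (b ^ k))) (rst Sum.inr) (b ^ k * b ^ i) A e
  | FI.V2 k => gfL xH2 (fun _ => ()) (Vw K (wB (b ^ k))) (rst Sum.inr) (b ^ k * b ^ i) A e
  | FI.T k => gfL xT (fun _ => ()) (Vw K (wB (b ^ k))) LinearMap.id (b ^ k * b ^ i) A e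
  | FI.TV k => gfL xT (fun _ => ()) (Vw K (wB (b ^ k))) (rst Sum.inr) (b ^ k * b ^ i) A e
  | FI.TS k =>
      gfL xT (fun _ => ()) (Vw K (wB (b ^ k))) (rst (Sum.inr ∘ Sum.inl)) (b ^ k * b ^ i) A e
  | FI.TR k =>
      gfL xT (fun _ => ()) (Vw K (wB (b ^ k))) (rst (Sum.inr ∘ Sum.inr)) (b ^ k * b ^ i) A e

/-- the functions `c` of all families, base `b` -/
noncomputable def cA (n : ℕ) (K : Type*) [Field K] (b : ℕ) (j : FI × ℕ)
    (A : Finset (Ed n K)) (e : Ed n K) : ℕ := cB n K b j.2 j.1 A e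

/-- the families `F`, `L1`, `L2` and all others for `k ≤ K'` -/
@[irreducible] def famA (K' : ℕ) : Finset FI :=
  {FI.F, FI.L1, FI.L2} ∪ (range (K' + 1)).image FI.H1 ∪ (range (K' + 1)).image FI.H2 ∪
    (range (K' + 1)).image FI.V1 ∪ (range (K' + 1)).image FI.V2 ∪
    (range (K' + 1)).image FI.T ∪ (range (K' + 1)).image FI.TV ∪
    (range (K' + 1)).image FI.TS ∪ (range (K' + 1)).image FI.TR

/-- the index set: all families, levels `i ≤ K'` -/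
@[irreducible] def JA (K' : ℕ) : Finset (FI × ℕ) := famA K' ×ˢ range (K' + 1)

/-- upper bound of all values -/
def NN (n : ℕ) : ℕ := 6 * n + 5

theorem cA_le (b : ℕ) (j : FI × ℕ) (A : Finset (Ed n K)) (e : Ed n K) :
    cA n K b j A e ≤ NN n := by
  have hC : Fintype.card (Crd n) = 2 * n + 1 := by simp [Crd]; ring
  have hP : Fintype.card (Pt n) = 2 * n + 2 := by simp [Pt]; ring
  obtain ⟨f, i⟩ := j
  unfold NN
  cases f
  all_goals
    refine (gfL_le _ _ _ _ _ _ _).trans ?_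
    simp only [Fintype.card_sum, hC, hP, Fintype.card_fin]
    omega

theorem cA_mono (b : ℕ) (j : FI × ℕ) {A B : Finset (Ed n K)} (h : A ⊆ B) (e : Ed n K) :
    cA n K b j B e ≤ cA n K b j A e := by
  obtain ⟨f, i⟩ := j
  cases f
  all_goals exact gfL_mono_set _ _ _ _ _ h e

theorem mem_JA {K' : ℕ} {f : FI} {i : ℕ} : (f, i) ∈ JA K' ↔ f ∈ famA K' ∧ i ≤ K' := by
  unfold JA
  rw [Finset.mem_product, Finset.mem_range, Nat.lt_succ_iff]

theorem mem_famA {K' : ℕ} {f : FI} : f ∈ famA K' ↔ f = FI.F ∨ f = FI.L1 ∨ f = FI.L2 ∨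
    (∃ k ≤ K', f = FI.H1 k ∨ f = FI.H2 k ∨ f = FI.V1 k ∨ f = FI.V2 k ∨ f = FI.T k ∨
      f = FI.TV k ∨ f = FI.TS k ∨ f = FI.TR k) := by
  unfold famA
  simp only [Finset.mem_union, Finset.mem_insert, Finset.mem_singleton, Finset.mem_image,
    Finset.mem_range, Nat.lt_succ_iff]
  constructor
  · rintro ((((((((h | ⟨k, hk, rfl⟩) | ⟨k, hk, rfl⟩) | ⟨k, hk, rfl⟩) | ⟨k, hk, rfl⟩) |
      ⟨k, hk, rfl⟩) | ⟨k, hk, rfl⟩) | ⟨k, hk, rfl⟩) | ⟨k, hk, rfl⟩)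
    · rcases h with h | h | h
      · exact Or.inl h
      · exact Or.inr (Or.inl h)
      · exact Or.inr (Or.inr (Or.inl h))
    all_goals exact Or.inr (Or.inr (Or.inr ⟨k, hk, by simp⟩))
  · rintro (rfl | rfl | rfl | ⟨k, hk, h⟩)
    · simp
    · simp
    · simp
    · rcases h with rfl | rfl | rfl | rfl | rfl | rfl | rfl | rfl
      all_goals simp [hk]

theorem mem_JA_F {K' i : ℕ} (hi : i ≤ K') : (FI.F, i) ∈ JA K' := by
  rw [mem_JA]
  exact ⟨mem_famA.2 (Or.inl rfl), hi⟩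

theorem mem_JA_L1 {K' i : ℕ} (hi : i ≤ K') : (FI.L1, i) ∈ JA K' := by
  rw [mem_JA]
  exact ⟨mem_famA.2 (Or.inr (Or.inl rfl)), hi⟩

theorem mem_JA_L2 {K' i : ℕ} (hi : i ≤ K') : (FI.L2, i) ∈ JA K' := by
  rw [mem_JA]
  exact ⟨mem_famA.2 (Or.inr (Or.inr (Or.inl rfl))), hi⟩

theorem mem_JA_H1 {K' k i : ℕ} (hk : k ≤ K') (hi : i ≤ K') : (FI.H1 k, i) ∈ JA K' := by
  rw [mem_JA]
  exact ⟨mem_famA.2 (Or.inr (Or.inr (Or.inr ⟨k, hk, by simp⟩))), hi⟩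

theorem mem_JA_H2 {K' k i : ℕ} (hk : k ≤ K') (hi : i ≤ K') : (FI.H2 k, i) ∈ JA K' := by
  rw [mem_JA]
  exact ⟨mem_famA.2 (Or.inr (Or.inr (Or.inr ⟨k, hk, by simp⟩))), hi⟩

theorem mem_JA_V1 {K' k i : ℕ} (hk : k ≤ K') (hi : i ≤ K') : (FI.V1 k, i) ∈ JA K' := by
  rw [mem_JA]
  exact ⟨mem_famA.2 (Or.inr (Or.inr (Or.inr ⟨k, hk, by simp⟩))), hi⟩

theorem mem_JA_V2 {K' k i : ℕ} (hk : k ≤ K') (hi : i ≤ K') : (FI.V2 k, i) ∈ JA K' := by
  rw [mem_JA]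
  exact ⟨mem_famA.2 (Or.inr (Or.inr (Or.inr ⟨k, hk, by simp⟩))), hi⟩

theorem mem_JA_T {K' k i : ℕ} (hk : k ≤ K') (hi : i ≤ K') : (FI.T k, i) ∈ JA K' := by
  rw [mem_JA]
  exact ⟨mem_famA.2 (Or.inr (Or.inr (Or.inr ⟨k, hk, by simp⟩))), hi⟩

theorem mem_JA_TV {K' k i : ℕ} (hk : k ≤ K') (hi : i ≤ K') : (FI.TV k, i) ∈ JA K' := by
  rw [mem_JA]
  exact ⟨mem_famA.2 (Or.inr (Or.inr (Or.inr ⟨k, hk, by simp⟩))), hi⟩

theorem mem_JA_TS {K' k i : ℕ} (hk : k ≤ K') (hi : i ≤ K') : (FI.TS k, i) ∈ JA K' := by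
  rw [mem_JA]
  exact ⟨mem_famA.2 (Or.inr (Or.inr (Or.inr ⟨k, hk, by simp⟩))), hi⟩

theorem mem_JA_TR {K' k i : ℕ} (hk : k ≤ K') (hi : i ≤ K') : (FI.TR k, i) ∈ JA K' := by
  rw [mem_JA]
  exact ⟨mem_famA.2 (Or.inr (Or.inr (Or.inr ⟨k, hk, by simp⟩))), hi⟩

theorem isFam_F (b K' : ℕ) : IsFamL (cA n K b) (JA K')
    (fun i => (FI.F, i)) K' xF (fun _ => ()) (restrictTotalDegree (Crd n) K)
    (LinearMap.id : (Crd n → K) →ₗ[K] (Crd n → K)) 1 b := by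
  intro j hj
  refine ⟨?_, fun A e => rfl⟩
  rw [mem_JA]
  exact ⟨mem_famA.2 (Or.inl rfl), hj⟩

theorem isFam_L1 (b K' : ℕ) : IsFamL (cA n K b) (JA K')
    (fun i => (FI.L1, i)) K' xL Prod.fst (restrictTotalDegree (Fin n) K)
    (LinearMap.id : (Fin n → K) →ₗ[K] (Fin n → K)) 1 b := by
  intro j hj
  refine ⟨?_, fun A e => rfl⟩
  rw [mem_JA]
  exact ⟨mem_famA.2 (Or.inr (Or.inl rfl)), hj⟩

theorem isFam_L2 (b K' : ℕ) : IsFamL (cA n K b) (JA K')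
    (fun i => (FI.L2, i)) K' xL Prod.snd (restrictTotalDegree (Fin n) K)
    (LinearMap.id : (Fin n → K) →ₗ[K] (Fin n → K)) 1 b := by
  intro j hj
  refine ⟨?_, fun A e => rfl⟩
  rw [mem_JA]
  exact ⟨mem_famA.2 (Or.inr (Or.inr (Or.inl rfl))), hj⟩

theorem isFam_H1 (b K' k : ℕ) (hk : k ≤ K') : IsFamL (cA n K b) (JA K')
    (fun i => (FI.H1 k, i)) K' xH1 (fun _ => ()) (Vw K (wB (b ^ k)))
    (LinearMap.id : (Crd n ⊕ Pt n → K) →ₗ[K] (Crd n ⊕ Pt n → K)) (b ^ k) b := by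
  intro j hj
  refine ⟨?_, fun A e => rfl⟩
  rw [mem_JA]
  exact ⟨mem_famA.2 (Or.inr (Or.inr (Or.inr ⟨k, hk, by simp⟩))), hj⟩

theorem isFam_H2 (b K' k : ℕ) (hk : k ≤ K') : IsFamL (cA n K b) (JA K')
    (fun i => (FI.H2 k, i)) K' xH2 (fun _ => ()) (Vw K (wB (b ^ k)))
    (LinearMap.id : (Crd n ⊕ Pt n → K) →ₗ[K] (Crd n ⊕ Pt n → K)) (b ^ k) b := by
  intro j hj
  refine ⟨?_, fun A e => rfl⟩
  rw [mem_JA]
  exact ⟨mem_famA.2 (Or.inr (Or.inr (Or.inr ⟨k, hk, by simp⟩))), hj⟩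

theorem isFam_V1 (b K' k : ℕ) (hk : k ≤ K') : IsFamL (cA n K b) (JA K')
    (fun i => (FI.V1 k, i)) K' xH1 (fun _ => ()) (Vw K (wB (b ^ k)))
    (rst Sum.inr : (Crd n ⊕ Pt n → K) →ₗ[K] (Pt n → K)) (b ^ k) b := by
  intro j hj
  refine ⟨?_, fun A e => rfl⟩
  rw [mem_JA]
  exact ⟨mem_famA.2 (Or.inr (Or.inr (Or.inr ⟨k, hk, by simp⟩))), hj⟩

theorem isFam_V2 (b K' k : ℕ) (hk : k ≤ K') : IsFamL (cA n K b) (JA K')
    (fun i => (FI.V2 k, i)) K' xH2 (fun _ => ()) (Vw K (wB (b ^ k)))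
    (rst Sum.inr : (Crd n ⊕ Pt n → K) →ₗ[K] (Pt n → K)) (b ^ k) b := by
  intro j hj
  refine ⟨?_, fun A e => rfl⟩
  rw [mem_JA]
  exact ⟨mem_famA.2 (Or.inr (Or.inr (Or.inr ⟨k, hk, by simp⟩))), hj⟩

theorem isFam_T (b K' k : ℕ) (hk : k ≤ K') : IsFamL (cA n K b) (JA K')
    (fun i => (FI.T k, i)) K' xT (fun _ => ()) (Vw K (wB (b ^ k)))
    (LinearMap.id : (Crd n ⊕ (Pt n ⊕ Pt n) → K) →ₗ[K] (Crd n ⊕ (Pt n ⊕ Pt n) → K)) (b ^ k) b := by
  intro j hj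
  refine ⟨?_, fun A e => rfl⟩
  rw [mem_JA]
  exact ⟨mem_famA.2 (Or.inr (Or.inr (Or.inr ⟨k, hk, by simp⟩))), hj⟩

theorem isFam_TV (b K' k : ℕ) (hk : k ≤ K') : IsFamL (cA n K b) (JA K')
    (fun i => (FI.TV k, i)) K' xT (fun _ => ()) (Vw K (wB (b ^ k)))
    (rst Sum.inr : (Crd n ⊕ (Pt n ⊕ Pt n) → K) →ₗ[K] (Pt n ⊕ Pt n → K)) (b ^ k) b := by
  intro j hj
  refine ⟨?_, fun A e => rfl⟩
  rw [mem_JA]
  exact ⟨mem_famA.2 (Or.inr (Or.inr (Or.inr ⟨k, hk, by simp⟩))), hj⟩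

theorem isFam_TS (b K' k : ℕ) (hk : k ≤ K') : IsFamL (cA n K b) (JA K')
    (fun i => (FI.TS k, i)) K' xT (fun _ => ()) (Vw K (wB (b ^ k)))
    (rst (Sum.inr ∘ Sum.inl) : (Crd n ⊕ (Pt n ⊕ Pt n) → K) →ₗ[K] (Pt n → K)) (b ^ k) b := by
  intro j hj
  refine ⟨?_, fun A e => rfl⟩
  rw [mem_JA]
  exact ⟨mem_famA.2 (Or.inr (Or.inr (Or.inr ⟨k, hk, by simp⟩))), hj⟩

theorem isFam_TR (b K' k : ℕ) (hk : k ≤ K') : IsFamL (cA n K b) (JA K')
    (fun i => (FI.TR k, i)) K' xT (fun _ => ()) (Vw K (wB (b ^ k)))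
    (rst (Sum.inr ∘ Sum.inr) : (Crd n ⊕ (Pt n ⊕ Pt n) → K) →ₗ[K] (Pt n → K)) (b ^ k) b := by
  intro j hj
  refine ⟨?_, fun A e => rfl⟩
  rw [mem_JA]
  exact ⟨mem_famA.2 (Or.inr (Or.inr (Or.inr ⟨k, hk, by simp⟩))), hj⟩

theorem wB_ne {α β : Type*} {W : ℕ} (hW : 1 ≤ W) (x : α ⊕ β) : wB W x ≠ 0 := by
  rcases x with x | x
  · simp [wB]
  · simp only [wB, Sum.elim_inr]; omega

theorem wB_le {α β : Type*} {W : ℕ} (hW : 1 ≤ W) (x : α ⊕ β) : wB W x ≤ W := by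
  rcases x with x | x
  · simpa [wB] using hW
  · simp [wB]

end Vale.Agent.P054.T2.H307
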