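import Vale.Agent.P054.T2.H307.Sys

/-!
# (Lo) along a chain, any filtration (P054, T2 project, rows [R6], (LO))
-/

namespace Vale.Agent.P054.T2.H307

open Finset MvPolynomial Module

section pts

variable {ι σ K : Type*}

/-- the set of points of a set of edges -/
noncomputable def pts (x : ι → σ → K) (A : Finset ι) : Finset (σ → K) := by
  classical
  exact A.image x

theorem mem_pts {x : ι → σ → K} {A : Finset ι} {z : σ → K} :
    z ∈ pts x A ↔ ∃ e ∈ A, x e = z := by
  classical
  simp [pts]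

theorem pts_mono {x : ι → σ → K} {A B : Finset ι} (h : A ⊆ B) : pts x A ⊆ pts x B := by
  intro z hz
  obtain ⟨e, he, rfl⟩ := mem_pts.1 hz
  exact mem_pts.2 ⟨e, h he, rfl⟩

theorem pts_nonempty {x : ι → σ → K} {A : Finset ι} (h : A.Nonempty) : (pts x A).Nonempty := by
  obtain ⟨e, he⟩ := h
  exact ⟨x e, mem_pts.2 ⟨e, he, rfl⟩⟩

end pts

variable {ι σ K : Type*} [Field K] [CharZero K] [Fintype σ] [DecidableEq σ]

/-- **[R6]** one application of (Lo). -/
theorem lo_step {V : ℕ → Submodule K (MvPolynomial σ K)} (hV : H580.IsFilt V)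
    (hder : ∀ n i F, F ∈ V n → pderiv i F ∈ V n) {w₀ : ℕ} (hX : ∀ i, X i ∈ V w₀)
    (x : ι → σ → K) (B : ℕ → Finset ι) (k : ℕ) (hk : 0 < k) (hB : ∀ i < k, B (i + 1) ⊆ B i)
    (v T₂ : ℕ) (hgr : ∀ i < k, ∀ e ∈ B (i + 1), gr x (B i) (V T₂) (x e) = v)
    (T₁ : ℕ) (hT₁ : T₁ ≤ T₂) (f : Fin v → MvPolynomial σ K)
    (hf : ∀ j, f j ∈ van x (B 0) (V T₁))
    (hind : ∀ e ∈ B 1, LinearIndependent K (fun j => grad (x e) (f j)))
    {T : ℕ} (hT : (k + 1) * T + k * w₀ + k * (v * T₁) ≤ T₂) :
    H580.rkF V (pts x (B k)) T *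
        (k + (Fintype.card σ - v)).choose (Fintype.card σ - v) ≤
      H580.rkF V (pts x (B 0)) ((k + 1) * T + k * w₀) := by
  classical
  have hsub0 : ∀ i ≤ k, B i ⊆ B 0 := by
    intro i
    induction i with
    | zero => exact fun _ => Finset.Subset.refl _
    | succ i ih => exact fun h => (hB i (by omega)).trans (ih (by omega))
  have hsub1 : ∀ i, i + 1 ≤ k → B (i + 1) ⊆ B 1 := by
    intro i
    induction i with
    | zero => exact fun _ => Finset.Subset.refl _
    | succ i ih => exact fun h => (hB (i + 1) (by omega)).trans (ih (by omega))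
  have hBk1 : B k ⊆ B 1 := by
    have := hsub1 (k - 1) (by omega)
    rwa [show k - 1 + 1 = k by omega] at this
  refine hV.lo_set hX (pts x (B 0)) (pts x (B k)) (fun p => H930.J p f (k + 1)) ?_ ?_ ?_
  · intro p _
    exact le_sup_right
  · intro p hp F hF hFZ
    obtain ⟨e, he, rfl⟩ := mem_pts.1 hp
    have heB : e ∈ B 0 := hsub0 k le_rfl he
    obtain ⟨n', D, -, hD1, hD2, hD3⟩ := exists_derivations (x e) f
      (fun j => (mem_van.1 (hf j)).2 e heB) (hind e (hBk1 he)) hV hder T₁
      (fun j => (mem_van.1 (hf j)).1)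
    apply hD3 (k + 1) F
    intro l hl
    have hkill := word_eval_eq_zero x B k hB v (V T₂) hgr f
      (fun j => van_mono (Finset.Subset.refl _) (hV.mono hT₁) (hf j))
      (fun _ => hind) D
      (fun _ t j e' _ => by rw [hD1, map_zero]) (F := F)
      (fun e' he' => hFZ (x e') (mem_pts.2 ⟨e', he', rfl⟩))
      (fun l' hl' => by
        have h1 := word_mem hD2 l' hF
        refine hV.mono ?_ h1
        have h2 : l'.length * (v * T₁) ≤ k * (v * T₁) := Nat.mul_le_mul_right _ hl'.le
        omega)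
      l (by omega) e
    have hsubl : B k ⊆ B l.length := by
      have : ∀ m, l.length + m ≤ k → B (l.length + m) ⊆ B l.length := by
        intro m
        induction m with
        | zero => exact fun _ => Finset.Subset.refl _
        | succ m ih => exact fun h => (hB (l.length + m) (by omega)).trans (ih (by omega))
      have h3 := this (k - l.length) (by omega)
      rwa [show l.length + (k - l.length) = k by omega] at h3
    exact hkill (hsubl he)
  · intro p hp
    obtain ⟨e, he, rfl⟩ := mem_pts.1 hp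
    have heB : e ∈ B 0 := hsub0 k le_rfl he
    rw [H930.finrank_quot_J (x e) f (fun j => (mem_van.1 (hf j)).2 e heB) (hind e (hBk1 he)) k]

/-- elementary lower bound of the gain -/
theorem pow_le_gain (β C₁ k e N : ℕ) (hβ : β ≤ C₁ * (k + 1)) (hC : 1 ≤ C₁) (heN : e ≤ N) :
    β ^ e ≤ C₁ ^ N * N.factorial * (k + e).choose e := by
  have h1 : (k + 1) ^ e ≤ e.factorial * (k + e).choose e := by
    rw [← Nat.ascFactorial_eq_factorial_mul_choose]
    exact Nat.pow_succ_le_ascFactorial _ _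
  calc β ^ e ≤ (C₁ * (k + 1)) ^ e := Nat.pow_le_pow_left hβ e
    _ = C₁ ^ e * (k + 1) ^ e := Nat.mul_pow _ _ _
    _ ≤ C₁ ^ N * (N.factorial * (k + e).choose e) := by
        refine Nat.mul_le_mul (Nat.pow_le_pow_right hC heN) (h1.trans ?_)
        exact Nat.mul_le_mul_right _ (Nat.factorial_le heN)
    _ = _ := by ring

/-- one sub-step: from level `T` to level `β * T`, inside a stable step -/
theorem lo_sub {V : ℕ → Submodule K (MvPolynomial σ K)} (hV : H580.IsFilt V) [Infinite K]
    (hder : ∀ n i F, F ∈ V n → pderiv i F ∈ V n) {a : ℕ} (hX : ∀ i, X i ∈ V a)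
    (x : ι → σ → K) (B : ℕ → Finset ι) (k β C₁ : ℕ) (hk : 0 < k)
    (hβ : k * (Fintype.card σ + 2) + 1 ≤ β) (hC : β ≤ C₁ * (k + 1)) (hC1 : 1 ≤ C₁)
    (hB : ∀ i, B (i + 1) ⊆ B i) (v T₁ T₂ : ℕ) (haT : a ≤ T₁)
    (hgr₁ : ∀ e ∈ B 1, gr x (B 0) (V T₁) (x e) = v)
    (hgr₂ : ∀ i < k, ∀ e ∈ B (i + 1), gr x (B i) (V T₂) (x e) = v)
    {T : ℕ} (hT₁ : T₁ ≤ T) (hT : β * T ≤ T₂) :
    β ^ (Fintype.card σ - v) * H580.rkF V (pts x (B k)) T ≤
      C₁ ^ (Fintype.card σ) * (Fintype.card σ).factorial *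
        H580.rkF V (pts x (B 0)) (β * T) := by
  classical
  rcases (B 1).eq_empty_or_nonempty with hB1 | ⟨e₁, he₁⟩
  · have hsub1 : ∀ i, B (i + 1) ⊆ B 1 := by
      intro i
      induction i with
      | zero => exact Finset.Subset.refl _
      | succ i ih => exact (hB (i + 1)).trans ih
    have hBk : B k = ∅ := by
      have := hsub1 (k - 1)
      rw [show k - 1 + 1 = k by omega, hB1] at this
      exact Finset.subset_empty.1 this
    have h0 : pts x (B k) = ∅ := by
      rw [hBk]
      simp [pts]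
    have h1 : H580.rkF V (pts x (B k)) T ≤ 0 := by
      refine (H580.rkF_le_card V _ T).trans ?_
      rw [h0]
      simp
    rw [Nat.le_zero.1 h1, mul_zero]
    exact Nat.zero_le _
  have hvN : v ≤ Fintype.card σ := by
    rw [← hgr₁ e₁ he₁]
    exact gr_le _ _ _ _
  obtain ⟨f, -, hf, hind⟩ := exists_sys x (A₀ := B 0) (A₁ := B 1) (fun _ => V T₁)
    (LinearMap.id : (σ → K) →ₗ[K] (σ → K)) 1 Nat.one_pos (fun _ _ _ _ => le_rfl) (fun _ => v)
    (fun _ _ _ _ => le_rfl) (fun _ _ e he => (hgr₁ e he).ge)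
  have hTT : T ≤ β * T := Nat.le_mul_of_pos_left _ (by omega)
  have hlev : (k + 1) * T + k * a + k * (v * T₁) ≤ β * T := by
    have h1 : k * a ≤ k * T := Nat.mul_le_mul_left _ (haT.trans hT₁)
    have h2 : k * (v * T₁) ≤ k * (Fintype.card σ * T) :=
      Nat.mul_le_mul_left _ (Nat.mul_le_mul hvN hT₁)
    calc (k + 1) * T + k * a + k * (v * T₁)
        ≤ (k + 1) * T + k * T + k * (Fintype.card σ * T) := by omega
      _ = (k * (Fintype.card σ + 2) + 1) * T := by ring
      _ ≤ β * T := Nat.mul_le_mul_right _ hβ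
  have h1 := lo_step hV hder hX x B k hk (fun i _ => hB i) v T₂ hgr₂ T₁
    (hT₁.trans (hTT.trans hT)) (fun j : Fin v => f j)
    (fun j => hf 0 Nat.one_pos j j.2) hind (T := T) (hlev.trans hT)
  have h2 := hV.rkF_mono_deg (pts x (B 0)) (a := (k + 1) * T + k * a) (b := β * T)
    (by omega)
  have h3 := pow_le_gain β C₁ k (Fintype.card σ - v) (Fintype.card σ) hC hC1 (by omega)
  calc β ^ (Fintype.card σ - v) * H580.rkF V (pts x (B k)) T
      ≤ (C₁ ^ (Fintype.card σ) * (Fintype.card σ).factorial *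
          (k + (Fintype.card σ - v)).choose (Fintype.card σ - v)) *
          H580.rkF V (pts x (B k)) T := Nat.mul_le_mul_right _ h3
    _ = C₁ ^ (Fintype.card σ) * (Fintype.card σ).factorial *
          (H580.rkF V (pts x (B k)) T *
          (k + (Fintype.card σ - v)).choose (Fintype.card σ - v)) := by ring
    _ ≤ _ := Nat.mul_le_mul_left _ (h1.trans h2)

/-- `l` sub-steps -/
theorem lo_subs {V : ℕ → Submodule K (MvPolynomial σ K)} (hV : H580.IsFilt V) [Infinite K]
    (hder : ∀ n i F, F ∈ V n → pderiv i F ∈ V n) {a : ℕ} (hX : ∀ i, X i ∈ V a)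
    (x : ι → σ → K) (k β C₁ : ℕ) (hk : 0 < k)
    (hβ : k * (Fintype.card σ + 2) + 1 ≤ β) (hC : β ≤ C₁ * (k + 1)) (hC1 : 1 ≤ C₁)
    (v T₁ T₂ : ℕ) (haT : a ≤ T₁) (l : ℕ) (hT : β ^ l * T₁ ≤ T₂) :
    ∀ (B : ℕ → Finset ι), (∀ i, B (i + 1) ⊆ B i) →
    (∀ i < l * k, ∀ e ∈ B (i + 1), gr x (B i) (V T₁) (x e) = v) →
    (∀ i < l * k, ∀ e ∈ B (i + 1), gr x (B i) (V T₂) (x e) = v) →
    (β ^ l) ^ (Fintype.card σ - v) * H580.rkF V (pts x (B (l * k))) T₁ ≤
      (C₁ ^ (Fintype.card σ) * (Fintype.card σ).factorial) ^ l *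
        H580.rkF V (pts x (B 0)) (β ^ l * T₁) := by
  induction l with
  | zero =>
    intro B _ _ _
    simp
  | succ l ih =>
    intro B hB hg1 hg2
    set C₂ := C₁ ^ (Fintype.card σ) * (Fintype.card σ).factorial with hC₂
    have hlk : (l + 1) * k = l * k + k := by ring
    have hpow : β ^ (l + 1) * T₁ = β * (β ^ l * T₁) := by ring
    have hβ1 : 1 ≤ β := by omega
    have hle : β ^ l * T₁ ≤ T₂ := by
      refine le_trans ?_ hT
      exact Nat.mul_le_mul_right _ (Nat.pow_le_pow_right hβ1 (Nat.le_succ l))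
    have h1 := ih hle (fun i => B (i + k))
      (fun i => by
        have := hB (i + k)
        rwa [show i + k + 1 = i + 1 + k by omega] at this)
      (fun i hi e he => by
        have := hg1 (i + k) (by omega) e (by rwa [show i + k + 1 = i + 1 + k by omega])
        exact this)
      (fun i hi e he => by
        have := hg2 (i + k) (by omega) e (by rwa [show i + k + 1 = i + 1 + k by omega])
        exact this)
    simp only [Nat.zero_add] at h1
    have h2 := lo_sub hV hder hX x B k β C₁ hk hβ hC hC1 hB v T₁ T₂ haT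
      (fun e he => hg1 0 (by
        have : 0 < (l + 1) * k := Nat.mul_pos (Nat.succ_pos l) hk
        exact this) e he)
      (fun i hi e he => hg2 i (by omega) e he)
      (T := β ^ l * T₁) (Nat.le_mul_of_pos_left _ (Nat.pow_pos hβ1)) (by rw [← hpow]; exact hT)
    rw [hlk, hpow]
    calc (β ^ (l + 1)) ^ (Fintype.card σ - v) * H580.rkF V (pts x (B (l * k + k))) T₁
        = β ^ (Fintype.card σ - v) * ((β ^ l) ^ (Fintype.card σ - v) *
            H580.rkF V (pts x (B (l * k + k))) T₁) := by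
          rw [pow_succ β l, mul_pow]
          ring
      _ ≤ β ^ (Fintype.card σ - v) * (C₂ ^ l * H580.rkF V (pts x (B k)) (β ^ l * T₁)) :=
          Nat.mul_le_mul_left _ h1
      _ = C₂ ^ l * (β ^ (Fintype.card σ - v) * H580.rkF V (pts x (B k)) (β ^ l * T₁)) := by ring
      _ ≤ C₂ ^ l * (C₂ * H580.rkF V (pts x (B 0)) (β * (β ^ l * T₁))) :=
          Nat.mul_le_mul_left _ h2
      _ = C₂ ^ (l + 1) * H580.rkF V (pts x (B 0)) (β * (β ^ l * T₁)) := by ring

/-- **(LO) along the levels `a * b ^ j`, `b = β ^ L`.**  A chain `B i`, gradient ranks `v j` at the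
level `a * b ^ j` (`j ≤ K'`).  Loss `C₂ ^ (L K')` and `b ^ (N (v K' - v 0))`. -/
theorem lo_levels {V : ℕ → Submodule K (MvPolynomial σ K)} (hV : H580.IsFilt V) [Infinite K]
    (hder : ∀ n i F, F ∈ V n → pderiv i F ∈ V n) {a : ℕ} (hX : ∀ i, X i ∈ V a)
    (x : ι → σ → K) (k β C₁ L : ℕ) (hk : 0 < k)
    (hβ : k * (Fintype.card σ + 2) + 1 ≤ β) (hC : β ≤ C₁ * (k + 1)) (hC1 : 1 ≤ C₁)
    (v : ℕ → ℕ) (K' : ℕ) (hv : ∀ j < K', v j ≤ v (j + 1))
    (B : ℕ → Finset ι) (hB : ∀ i, B (i + 1) ⊆ B i)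
    (hg : ∀ j ≤ K', ∀ i < K' * (L * k), ∀ e ∈ B (i + 1),
      gr x (B i) (V (a * (β ^ L) ^ j)) (x e) = v j) :
    (β ^ L) ^ (∑ j ∈ range K', (Fintype.card σ - v j)) *
        H580.rkF V (pts x (B (K' * (L * k)))) a ≤
      ((C₁ ^ (Fintype.card σ) * (Fintype.card σ).factorial) ^ L) ^ K' *
        (β ^ L) ^ (Fintype.card σ * ((Fintype.card σ - v 0) - (Fintype.card σ - v K'))) *
        H580.rkF V (pts x (B 0)) (a * (β ^ L) ^ K') := by
  set b := β ^ L with hb
  set C₂ := C₁ ^ (Fintype.card σ) * (Fintype.card σ).factorial with hC₂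
  have hβ1 : 1 ≤ β := by omega
  have hb1 : 1 ≤ b := Nat.pow_pos hβ1
  have hC₂1 : 1 ≤ C₂ := Nat.mul_pos (Nat.pow_pos hC1) (Nat.factorial_pos _)
  have hBmono : ∀ i m, B (i + m) ⊆ B i := by
    intro i m
    induction m with
    | zero => exact Finset.Subset.refl _
    | succ m ih => exact (hB (i + m)).trans ih
  have hBle : ∀ i j, i ≤ j → B j ⊆ B i := by
    intro i j hij
    have := hBmono i (j - i)
    rwa [show i + (j - i) = j by omega] at this
  have hmain := pow_sum_le_rank b (C₂ ^ L) (Fintype.card σ) hb1 (Nat.pow_pos hC₂1)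
    (fun j => Fintype.card σ - v j)
    (fun j => H580.rkF V (pts x (B ((K' - j) * (L * k)))) (a * b ^ j)) K'
    (fun j hj => Nat.sub_le_sub_left (hv j hj) _)
    (fun j _ => Nat.sub_le _ _)
    (by
      intro j hj hst
      -- `v (j+1) = v j` or both are at least `N`
      have hidx : (K' - j) * (L * k) = (K' - (j + 1)) * (L * k) + L * k := by
        have : K' - j = (K' - (j + 1)) + 1 := by omega
        rw [this]
        ring
      have hrange : ∀ i, i < L * k → (K' - (j + 1)) * (L * k) + i < K' * (L * k) := by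
        intro i hi
        have h1 : (K' - (j + 1)) * (L * k) + L * k ≤ K' * (L * k) := by
          rw [← hidx]
          exact Nat.mul_le_mul_right _ (Nat.sub_le _ _)
        omega
      rw [hidx]
      rcases (B ((K' - (j + 1)) * (L * k) + L * k)).eq_empty_or_nonempty with hem | hne
      · have h1 : H580.rkF V (pts x (B ((K' - (j + 1)) * (L * k) + L * k))) (a * b ^ j) ≤ 0 := by
          refine (H580.rkF_le_card V _ _).trans ?_
          rw [hem]
          simp [pts]
        rw [Nat.le_zero.1 h1, mul_zero]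
        exact Nat.zero_le _
      rcases Nat.eq_zero_or_pos L with hL | hL
      · subst hL
        have hb' : b = 1 := by rw [hb, pow_zero]
        rw [hb']
        simp
      have hLk : 0 < L * k := Nat.mul_pos hL hk
      obtain ⟨e₁, he₁⟩ := hne
      have he₁' : e₁ ∈ B ((K' - (j + 1)) * (L * k) + 0 + 1) :=
        hBle _ _ (by omega) he₁
      have hvj : v (j + 1) = v j := by
        have h1 : v j ≤ Fintype.card σ := by
          rw [← hg j hj.le _ (hrange 0 hLk) e₁ he₁']
          exact gr_le _ _ _ _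
        have h2 : v (j + 1) ≤ Fintype.card σ := by
          rw [← hg (j + 1) hj _ (hrange 0 hLk) e₁ he₁']
          exact gr_le _ _ _ _
        omega
      have h1 := lo_subs hV hder hX x k β C₁ hk hβ hC hC1 (v j) (a * b ^ j) (a * b ^ (j + 1))
        (Nat.le_mul_of_pos_right _ (Nat.pow_pos hb1)) L
        (le_of_eq (by rw [pow_succ b j]; ring))
        (fun i => B ((K' - (j + 1)) * (L * k) + i))
        (fun i => hB _)
        (fun i hi e he => hg j hj.le _ (hrange i hi) e he)
        (fun i hi e he => by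
          rw [← hvj]
          exact hg (j + 1) hj _ (hrange i hi) e he)
      have h2 : β ^ L * (a * b ^ j) = a * b ^ (j + 1) := by rw [pow_succ b j]; ring
      rw [h2] at h1
      exact h1)
    (by
      intro j hj
      refine (hV.rkF_mono_set (pts_mono (hBle _ _ ?_)) _).trans (hV.rkF_mono_deg _ ?_)
      · exact Nat.mul_le_mul_right _ (by omega)
      · exact Nat.mul_le_mul_left _ (Nat.pow_le_pow_right hb1 (Nat.le_succ j)))
  have h1 := hmain.1
  simp only [Nat.sub_zero, Nat.sub_self, Nat.zero_mul, pow_zero, mul_one] at h1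
  exact h1

end Vale.Agent.P054.T2.H307
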