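import Vale.Agent.P054.T2.H307.Sum

/-!
# Gradient ranks at edges (P054, T2 project, rows [R4], [R5])

`x : ι → (σ → K)` are the coordinates of the edges, `W` is a space of polynomials (total degree
`≤ T`, or weighted degree `≤ T`, ...).  `van x A W` is the space of the elements of `W` vanishing at
the points `x e`, `e ∈ A`, and `gr x A W z` is the dimension of the space of their gradients at `z`.
-/

namespace Vale.Agent.P054.T2.H307

open Finset MvPolynomial Module

variable {ι σ K : Type*} [Field K]

/-- the gradient of a polynomial at `z` -/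
noncomputable def grad (z : σ → K) : MvPolynomial σ K →ₗ[K] (σ → K) where
  toFun f := fun i => eval z (pderiv i f)
  map_add' f g := by
    ext i
    simp
  map_smul' a f := by
    ext i
    simp [MvPolynomial.smul_eq_C_mul]

@[simp] theorem grad_apply (z : σ → K) (f : MvPolynomial σ K) (i : σ) :
    grad z f i = eval z (pderiv i f) := rfl

/-- elements of `W` vanishing at the points `x e`, `e ∈ A` -/
def van (x : ι → σ → K) (A : Finset ι) (W : Submodule K (MvPolynomial σ K)) :
    Submodule K (MvPolynomial σ K) where
  carrier := {f | f ∈ W ∧ ∀ e ∈ A, eval (x e) f = 0}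
  add_mem' := by
    rintro f g ⟨hf, hf'⟩ ⟨hg, hg'⟩
    refine ⟨W.add_mem hf hg, fun e he => ?_⟩
    rw [map_add, hf' e he, hg' e he, add_zero]
  zero_mem' := ⟨W.zero_mem, fun e _ => by simp⟩
  smul_mem' := by
    rintro a f ⟨hf, hf'⟩
    refine ⟨W.smul_mem a hf, fun e he => ?_⟩
    rw [MvPolynomial.smul_eq_C_mul, map_mul, hf' e he, mul_zero]

theorem mem_van {x : ι → σ → K} {A : Finset ι} {W : Submodule K (MvPolynomial σ K)}
    {f : MvPolynomial σ K} : f ∈ van x A W ↔ f ∈ W ∧ ∀ e ∈ A, eval (x e) f = 0 := Iff.rfl

theorem van_mono {x : ι → σ → K} {A B : Finset ι} (h : A ⊆ B)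
    {W W' : Submodule K (MvPolynomial σ K)} (hW : W ≤ W') :
    van x B W ≤ van x A W' := by
  rintro f ⟨hf, hf'⟩
  exact ⟨hW hf, fun e he => hf' e (h he)⟩

/-- the space of gradients at `z` -/
noncomputable def gsp (x : ι → σ → K) (A : Finset ι) (W : Submodule K (MvPolynomial σ K))
    (z : σ → K) : Submodule K (σ → K) := (van x A W).map (grad z)

/-- the gradient rank -/
noncomputable def gr (x : ι → σ → K) (A : Finset ι) (W : Submodule K (MvPolynomial σ K))
    (z : σ → K) : ℕ :=
  finrank K (gsp x A W z)

theorem gsp_mono {x : ι → σ → K} {A B : Finset ι} (h : A ⊆ B)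
    {W W' : Submodule K (MvPolynomial σ K)} (hW : W ≤ W') (z : σ → K) :
    gsp x B W z ≤ gsp x A W' z :=
  Submodule.map_mono (van_mono h hW)

theorem grad_mem_gsp {x : ι → σ → K} {A : Finset ι} {W : Submodule K (MvPolynomial σ K)}
    {f : MvPolynomial σ K} (hf : f ∈ van x A W) (z : σ → K) : grad z f ∈ gsp x A W z :=
  Submodule.mem_map_of_mem hf

/-- iterated derivations along a word -/
noncomputable def word {τ : Type*} (D : τ → Derivation K (MvPolynomial σ K) (MvPolynomial σ K))
    (l : List τ) (F : MvPolynomial σ K) : MvPolynomial σ K :=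
  l.foldr (fun t G => D t G) F

@[simp] theorem word_nil {τ : Type*}
    (D : τ → Derivation K (MvPolynomial σ K) (MvPolynomial σ K)) (F : MvPolynomial σ K) :
    word D [] F = F := rfl

@[simp] theorem word_cons {τ : Type*}
    (D : τ → Derivation K (MvPolynomial σ K) (MvPolynomial σ K)) (t : τ) (l : List τ)
    (F : MvPolynomial σ K) : word D (t :: l) F = D t (word D l F) := rfl

theorem word_append {τ : Type*} (D : τ → Derivation K (MvPolynomial σ K) (MvPolynomial σ K))
    (l l' : List τ) (F : MvPolynomial σ K) : word D (l ++ l') F = word D l (word D l' F) := by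
  unfold word
  rw [List.foldr_append]

/-- If `D t` maps `V n` to `V (n + δ)`, words of length `m` map `V n` to `V (n + m * δ)`. -/
theorem word_mem {τ : Type*} {D : τ → Derivation K (MvPolynomial σ K) (MvPolynomial σ K)}
    {V : ℕ → Submodule K (MvPolynomial σ K)} {δ : ℕ}
    (hD : ∀ t n F, F ∈ V n → D t F ∈ V (n + δ)) (l : List τ) {n : ℕ} {F : MvPolynomial σ K}
    (hF : F ∈ V n) : word D l F ∈ V (n + l.length * δ) := by
  induction l with
  | nil => simpa using hF
  | cons t l ih =>
    rw [word_cons, List.length_cons]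
    have h2 : n + (l.length + 1) * δ = n + l.length * δ + δ := by ring
    rw [h2]
    exact hD t _ _ ih

section fin

variable [Fintype σ]

theorem gr_le (x : ι → σ → K) (A : Finset ι) (W : Submodule K (MvPolynomial σ K)) (z : σ → K) :
    gr x A W z ≤ Fintype.card σ := by
  have h := Submodule.finrank_le (gsp x A W z)
  rwa [Module.finrank_fintype_fun_eq_card] at h

theorem gr_mono {x : ι → σ → K} {A B : Finset ι} (h : A ⊆ B)
    {W W' : Submodule K (MvPolynomial σ K)} (hW : W ≤ W') (z : σ → K) :
    gr x B W z ≤ gr x A W' z :=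
  Submodule.finrank_mono (gsp_mono h hW z)

/-- a derivation at a point depends only on the gradient -/
theorem eval_derivation (D : Derivation K (MvPolynomial σ K) (MvPolynomial σ K))
    (F : MvPolynomial σ K) (z : σ → K) :
    eval z (D F) = ∑ i, eval z (D (X i)) * grad z F i := by
  classical
  induction F using MvPolynomial.induction_on with
  | C a =>
    have h : D (C a) = 0 := by
      rw [show (C a : MvPolynomial σ K) = algebraMap K _ a from rfl]
      exact D.map_algebraMap a
    rw [h]
    simp
  | add F G hF hG =>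
    rw [map_add, map_add, hF, hG, ← Finset.sum_add_distrib]
    refine Finset.sum_congr rfl fun i _ => ?_
    rw [map_add, Pi.add_apply, mul_add]
  | mul_X F j hF =>
    rw [Derivation.leibniz, map_add, smul_eq_mul, smul_eq_mul, map_mul, map_mul, hF]
    have h1 : ∀ i, eval z (D (X i)) * grad z (F * X j) i =
        eval z F * (if i = j then eval z (D (X i)) else 0) +
        eval z (X j) * (eval z (D (X i)) * grad z F i) := by
      intro i
      rw [grad_apply, Derivation.leibniz, pderiv_X, smul_eq_mul, smul_eq_mul, map_add, map_mul,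
        map_mul, grad_apply]
      by_cases hij : i = j
      · subst hij
        simp
        ring
      · rw [Pi.single_eq_of_ne (Ne.symm hij), if_neg hij, map_zero]
        ring
    rw [Finset.sum_congr rfl (fun i _ => h1 i), Finset.sum_add_distrib, ← Finset.mul_sum,
      ← Finset.mul_sum]
    simp

/-- If the gradients of `f j` (`j < v`) are independent at `z`, belong to `gsp x A W z` and
`gr x A W z = v`, every `F ∈ van x A W` has its gradient in their span. -/
theorem grad_mem_span {x : ι → σ → K} {A : Finset ι} {W : Submodule K (MvPolynomial σ K)}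
    {z : σ → K} {v : ℕ}
    (hv : gr x A W z = v) (f : Fin v → MvPolynomial σ K) (hf : ∀ j, f j ∈ van x A W)
    (hind : LinearIndependent K (fun j => grad z (f j))) {F : MvPolynomial σ K}
    (hF : F ∈ van x A W) : grad z F ∈ Submodule.span K (Set.range (fun j => grad z (f j))) := by
  have hle : Submodule.span K (Set.range (fun j => grad z (f j))) ≤ gsp x A W z := by
    rw [Submodule.span_le]
    rintro _ ⟨j, rfl⟩
    exact grad_mem_gsp (hf j) z
  have hfr : finrank K (Submodule.span K (Set.range (fun j => grad z (f j)))) =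
      finrank K (gsp x A W z) := by
    rw [finrank_span_eq_card hind, Fintype.card_fin]
    exact hv.symm
  rw [Submodule.eq_of_le_of_finrank_eq hle hfr]
  exact grad_mem_gsp hF z

/-- **[R4] CHAIN ⇒ ORDER.**  Edges `A 0 ⊇ A 1 ⊇ ... ⊇ A n`, the gradient rank of `A i` at the
points of `A (i + 1)` for the space `W₂` is `v`; `f j ∈ van x (A 0) W₂` (`j < v`) have independent
gradients at the points of `A 1`; the derivations `D t` kill the `f j` at these points.  If `F`
vanishes on `A 0` and the words of length `< n` map `F` into `W₂`, every word of length `l ≤ n`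
kills `F` at the points of `A l`. -/
theorem word_eval_eq_zero {τ : Type*} (x : ι → σ → K) (A : ℕ → Finset ι) (n : ℕ)
    (hA : ∀ i < n, A (i + 1) ⊆ A i) (v : ℕ) (W₂ : Submodule K (MvPolynomial σ K))
    (hgr : ∀ i < n, ∀ e ∈ A (i + 1), gr x (A i) W₂ (x e) = v)
    (f : Fin v → MvPolynomial σ K) (hf : ∀ j, f j ∈ van x (A 0) W₂)
    (hind : 0 < n → ∀ e ∈ A 1, LinearIndependent K (fun j => grad (x e) (f j)))
    (D : τ → Derivation K (MvPolynomial σ K) (MvPolynomial σ K))
    (hkill : 0 < n → ∀ t j, ∀ e ∈ A 1, eval (x e) (D t (f j)) = 0)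
    {F : MvPolynomial σ K} (hF : ∀ e ∈ A 0, eval (x e) F = 0)
    (hW : ∀ l : List τ, l.length < n → word D l F ∈ W₂) :
    ∀ (l : List τ), l.length ≤ n → ∀ e ∈ A l.length, eval (x e) (word D l F) = 0 := by
  have hsub0 : ∀ i ≤ n, A i ⊆ A 0 := by
    intro i
    induction i with
    | zero => exact fun _ => Finset.Subset.refl _
    | succ i ih => exact fun h => (hA i (by omega)).trans (ih (by omega))
  have hsub1 : ∀ i, i + 1 ≤ n → A (i + 1) ⊆ A 1 := by
    intro i
    induction i with
    | zero => exact fun _ => Finset.Subset.refl _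
    | succ i ih => exact fun h => (hA (i + 1) (by omega)).trans (ih (by omega))
  intro l
  induction l with
  | nil =>
    intro _ e he
    exact hF e he
  | cons t l ih =>
    intro hl e he
    rw [List.length_cons] at hl he
    have hlen : l.length < n := by omega
    have hG : word D l F ∈ van x (A l.length) W₂ :=
      mem_van.2 ⟨hW l hlen, ih hlen.le⟩
    have he1 : e ∈ A 1 := hsub1 l.length (by omega) he
    have hfi : ∀ j, f j ∈ van x (A l.length) W₂ := fun j =>
      van_mono (hsub0 l.length hlen.le) le_rfl (hf j)
    have hsp := grad_mem_span (hgr l.length hlen e he) f hfi (hind (by omega) e he1) hG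
    rw [word_cons, eval_derivation]
    -- the linear functional given by `D t` kills the span of the gradients
    let L : (σ → K) →ₗ[K] K :=
      { toFun := fun y => ∑ i, eval (x e) (D t (X i)) * y i
        map_add' := by
          intro a b
          simp [mul_add, Finset.sum_add_distrib]
        map_smul' := by
          intro a b
          simp only [Pi.smul_apply, smul_eq_mul, RingHom.id_apply, Finset.mul_sum]
          apply Finset.sum_congr rfl
          intro i _
          ring }
    have hL : ∀ y ∈ Submodule.span K (Set.range (fun j => grad (x e) (f j))), L y = 0 := by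
      intro y hy
      have : Submodule.span K (Set.range (fun j => grad (x e) (f j))) ≤ LinearMap.ker L := by
        rw [Submodule.span_le]
        rintro _ ⟨j, rfl⟩
        have hk := hkill (by omega) t j e he1
        rw [eval_derivation] at hk
        exact hk
      exact this hy
    exact hL _ hsp

end fin

section avoid

/-- A vector space over an infinite field: avoid finitely many subspaces not containing `M`. -/
theorem exists_avoid_subspaces [Infinite K] {V α : Type*} [AddCommGroup V] [Module K V]
    (M : Submodule K V) (s : Finset α) (N : α → Submodule K V) (h : ∀ i ∈ s, ¬ M ≤ N i) :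
    ∃ m ∈ M, ∀ i ∈ s, m ∉ N i := by
  classical
  have hne : (⊤ : Submodule K M) ∉ s.image (fun i => (N i).comap M.subtype) := by
    intro htop
    obtain ⟨i, hi, hi'⟩ := Finset.mem_image.1 htop
    apply h i hi
    intro m hm
    have : (⟨m, hm⟩ : M) ∈ (N i).comap M.subtype := by rw [hi']; trivial
    exact this
  have h1 := Subspace.biUnion_ne_univ_of_top_notMem (k := K) (E := M)
    (s := s.image (fun i => (N i).comap M.subtype)) hne
  obtain ⟨m, hm⟩ := (Set.ne_univ_iff_exists_notMem _).1 h1
  refine ⟨m.1, m.2, ?_⟩
  intro i hi hmi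
  apply hm
  simp only [Set.mem_iUnion]
  exact ⟨(N i).comap M.subtype, Finset.mem_image_of_mem _ hi, hmi⟩

/-- **[R5] COMMON SYSTEM**, inductive form: the first `n` polynomials. -/
theorem exists_system_aux [Infinite K] [Fintype σ] (x : ι → σ → K) {A₀ A₁ : Finset ι}
    (W : ℕ → Submodule K (MvPolynomial σ K)) (K' : ℕ) (v : ℕ → ℕ)
    (hv : ∀ k l : ℕ, k ≤ l → l < K' → v k ≤ v l)
    (hgr : ∀ k < K', ∀ e ∈ A₁, gr x A₀ (W k) (x e) = v k) (n : ℕ) (hn : n ≤ v (K' - 1))
    (hK : 0 < K') :
    ∃ f : Fin n → MvPolynomial σ K,
      (∀ j : Fin n, f j ∈ van x A₀ (W ((range K').filter (fun k => v k ≤ (j : ℕ))).card)) ∧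
      ∀ e ∈ A₁, LinearIndependent K (fun j => grad (x e) (f j)) := by
  classical
  induction n with
  | zero =>
    refine ⟨fun j => j.elim0, fun j => j.elim0, fun e _ => ?_⟩
    exact linearIndependent_empty_type
  | succ n ih =>
    obtain ⟨f, hf, hind⟩ := ih ((Nat.le_succ n).trans hn)
    set κ := ((range K').filter (fun k => v k ≤ n)).card with hκ
    have hκ1 : κ ≤ K' - 1 := count_le K' v hv n (K' - 1) (by omega)
    have hκ2 : κ < K' := by omega
    have hκ3 : n < v κ := lt_at_count K' v hv n hκ2
    obtain ⟨g, hg, hg'⟩ := exists_avoid_subspaces (van x A₀ (W κ)) A₁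
      (fun e => (Submodule.span K (Set.range (fun j => grad (x e) (f j)))).comap (grad (x e)))
      (by
        intro e he hle
        have h1 : gsp x A₀ (W κ) (x e) ≤
            Submodule.span K (Set.range (fun j => grad (x e) (f j))) := by
          unfold gsp
          rw [Submodule.map_le_iff_le_comap]
          exact hle
        have h2 := Submodule.finrank_mono h1
        have h3 : finrank K (gsp x A₀ (W κ) (x e)) = v κ := hgr κ hκ2 e he
        rw [h3, finrank_span_eq_card (hind e he), Fintype.card_fin] at h2
        omega)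
    refine ⟨Fin.snoc f g, ?_, ?_⟩
    · intro j
      refine Fin.lastCases ?_ (fun j => ?_) j
      · rw [Fin.snoc_last]
        exact hg
      · rw [Fin.snoc_castSucc]
        exact hf j
    · intro e he
      have h1 : (fun j => grad (x e) ((Fin.snoc f g : Fin (n + 1) → MvPolynomial σ K) j)) =
          Fin.snoc (fun j => grad (x e) (f j)) (grad (x e) g) := by
        funext j
        refine Fin.lastCases ?_ (fun j => ?_) j
        · simp
        · simp
      rw [h1, linearIndependent_finSnoc]
      exact ⟨hind e he, hg' e he⟩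

/-- **[R5] COMMON SYSTEM.**  Edges `A₁ ⊆ A₀` at which the gradient ranks of `A₀` for the spaces
`W 0 ≤ W 1 ≤ ...` are the same numbers `v k`: there are polynomials `f j`, `j < v (K' - 1)`, the
same for all edges, such that `f j` vanishes on `A₀` and belongs to `W k` as soon as `j < v k`,
and whose gradients are independent at every edge of `A₁`. -/
theorem exists_system [Infinite K] [Fintype σ] (x : ι → σ → K) {A₀ A₁ : Finset ι}
    (W : ℕ → Submodule K (MvPolynomial σ K)) (K' : ℕ) (hK : 0 < K')
    (hW : ∀ k l : ℕ, k ≤ l → l < K' → W k ≤ W l)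
    (v : ℕ → ℕ) (hv : ∀ k l : ℕ, k ≤ l → l < K' → v k ≤ v l)
    (hgr : ∀ k < K', ∀ e ∈ A₁, gr x A₀ (W k) (x e) = v k) :
    ∃ f : Fin (v (K' - 1)) → MvPolynomial σ K,
      (∀ j : Fin (v (K' - 1)),
        f j ∈ van x A₀ (W ((range K').filter (fun k => v k ≤ (j : ℕ))).card)) ∧
      (∀ k < K', ∀ j : Fin (v (K' - 1)), (j : ℕ) < v k → f j ∈ van x A₀ (W k)) ∧
      ∀ e ∈ A₁, LinearIndependent K (fun j => grad (x e) (f j)) := by
  obtain ⟨f, hf, hind⟩ := exists_system_aux x W K' v hv hgr (v (K' - 1)) le_rfl hK
  refine ⟨f, hf, ?_, hind⟩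
  intro k hk j hj
  have h1 := count_le K' v hv j k hj
  exact van_mono (Finset.Subset.refl _) (hW _ _ h1 hk) (hf j)

end avoid

end Vale.Agent.P054.T2.H307
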