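import Vale.Agent.P054.T2.H307.Grad
import Vale.Agent.P054.T2.H275.Germ
import Vale.Agent.P054.T2.H930.Jets
import Vale.Agent.P054.T2.H580.Filt

/-!
# Words in the tangential derivations and jets (P054, T2 project, row [R6], part (i))

At a point `p` where the gradients of `f : Fin c → K[X]` are independent there are derivations
`D m`, which kill the `f j` identically, with controlled degrees, such that: if all words of length
`< n` in the `D m` kill `F` at `p`, then `F ∈ J p f n = (f) + 𝔪_p ^ n`.
-/

namespace Vale.Agent.P054.T2.H307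

open Finset MvPolynomial Module

section filt

variable {K : Type*} [Field K] {σ : Type*}

theorem C_mem_filt {V : ℕ → Submodule K (MvPolynomial σ K)} (hV : H580.IsFilt V) (a : K) :
    (C a : MvPolynomial σ K) ∈ V 0 := by
  have h : (C a : MvPolynomial σ K) = a • 1 := by
    rw [MvPolynomial.smul_eq_C_mul, mul_one]
  rw [h]
  exact (V 0).smul_mem a hV.one

theorem prod_mem_filt {V : ℕ → Submodule K (MvPolynomial σ K)} (hV : H580.IsFilt V) {α : Type*}
    (s : Finset α) (F : α → MvPolynomial σ K) (a : α → ℕ) (h : ∀ i ∈ s, F i ∈ V (a i)) :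
    ∏ i ∈ s, F i ∈ V (∑ i ∈ s, a i) := by
  classical
  induction s using Finset.induction_on with
  | empty => simpa using hV.one
  | insert i s his ih =>
    rw [Finset.prod_insert his, Finset.sum_insert his]
    exact hV.mul (h i (Finset.mem_insert_self _ _))
      (ih (fun j hj => h j (Finset.mem_insert_of_mem hj)))

end filt

section jet

variable {K : Type*} [Field K] {σ : Type*} [Fintype σ] [DecidableEq σ]

/-- degree of the cofactor derivations: the equations `g (inl j)` are in `V T₁`, the `g (inr m)`
have constant partial derivatives. -/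
theorem cof_mem {κ τ : Type*} [Fintype κ] [DecidableEq κ] [Fintype τ] [DecidableEq τ]
    {V : ℕ → Submodule K (MvPolynomial σ K)} (hV : H580.IsFilt V)
    (hder : ∀ n i F, F ∈ V n → pderiv i F ∈ V n)
    (e : κ ⊕ τ ≃ σ) (g : κ ⊕ τ → MvPolynomial σ K) (T₁ : ℕ)
    (hg : ∀ j, g (Sum.inl j) ∈ V T₁) (hlin : ∀ m i, pderiv i (g (Sum.inr m)) ∈ V 0)
    (m : τ) (n : ℕ) (F : MvPolynomial σ K) (hF : F ∈ V n) :
    H275.cof e g m F ∈ V (n + Fintype.card κ * T₁) := by
  rw [H275.cof_apply]
  refine Submodule.sum_mem _ (fun b _ => ?_)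
  have hadj : (H275.jac e g).adjugate b (Sum.inr m) ∈ V (Fintype.card κ * T₁) := by
    rw [Matrix.adjugate_apply, Matrix.det_apply]
    refine Submodule.sum_mem _ (fun π _ => ?_)
    have hrow : ∀ i : κ ⊕ τ, ((H275.jac e g).updateRow (Sum.inr m) (Pi.single b 1)) (π i) i ∈
        V (Sum.elim (fun _ => T₁) (fun _ => 0) (π i)) := by
      intro i
      rcases hπ : π i with j | m'
      · rw [Matrix.updateRow_ne (by simp)]
        exact hder _ _ _ (hg j)
      · by_cases hm : m' = m
        · subst hm
          rw [Matrix.updateRow_self]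
          by_cases hb : i = b
          · subst hb
            rw [Pi.single_eq_same]
            exact hV.one
          · rw [Pi.single_eq_of_ne hb]
            exact (V _).zero_mem
        · rw [Matrix.updateRow_ne (by simpa using hm)]
          exact hlin _ _
    have hsum : ∑ i : κ ⊕ τ, (Sum.elim (fun _ => T₁) (fun _ => 0) (π i) : ℕ) =
        Fintype.card κ * T₁ := by
      rw [Equiv.sum_comp π (fun i => (Sum.elim (fun _ => T₁) (fun _ => 0) i : ℕ)),
        Fintype.sum_sum_type]
      simp
    have hprod := prod_mem_filt hV Finset.univ _ _ (fun i _ => hrow i)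
    rw [hsum] at hprod
    rw [Units.smul_def]
    exact zsmul_mem hprod _
  rw [add_comm n]
  exact hV.mul hadj (hder _ _ _ hF)

omit [Fintype σ] [DecidableEq σ] in
theorem J_one_of_mem_mx {c : ℕ} (p : σ → K) (f : Fin c → MvPolynomial σ K)
    {F : MvPolynomial σ K} (hF : eval p F = 0) : F ∈ H930.J p f 1 := by
  unfold H930.J
  rw [pow_one]
  exact Ideal.mem_sup_right (H930.mem_mx.2 hF)

omit [Fintype σ] [DecidableEq σ] in
theorem constantCoeff_of_germ {c e : ℕ} (p : σ → K) (f : Fin c → MvPolynomial σ K)
    (φ : MvPolynomial σ K →ₐ[K] MvPowerSeries (Fin e) K)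
    (hφ : ∀ n F, φ F ∈ (H930.ordI n : Ideal (MvPowerSeries (Fin e) K)) ↔ F ∈ H930.J p f n)
    (G : MvPolynomial σ K) : MvPowerSeries.constantCoeff (φ G) = eval p G := by
  have h1 : G - C (eval p G) ∈ H930.J p f 1 := J_one_of_mem_mx p f (by simp)
  have h2 := (hφ 1 _).2 h1
  have h3 := H930.mem_ordI'.1 h2 0 (by simp)
  rw [map_sub, map_sub] at h3
  have h4 : φ (C (eval p G)) = MvPowerSeries.C (eval p G) := by
    rw [MvPolynomial.algHom_C]
    rfl
  rw [h4, MvPowerSeries.coeff_zero_eq_constantCoeff_apply,
    MvPowerSeries.coeff_zero_eq_constantCoeff_apply, MvPowerSeries.constantCoeff_C] at h3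
  exact sub_eq_zero.1 h3

/-- characteristic zero: order and partial derivatives -/
theorem mem_ordI_succ_of_pderiv [CharZero K] {e : ℕ} (φ : MvPowerSeries (Fin e) K) (n : ℕ)
    (h0 : MvPowerSeries.constantCoeff φ = 0)
    (h : ∀ l, MvPowerSeries.pderiv K l φ ∈ (H930.ordI n : Ideal (MvPowerSeries (Fin e) K))) :
    φ ∈ (H930.ordI (n + 1) : Ideal (MvPowerSeries (Fin e) K)) := by
  rw [H930.mem_ordI']
  intro d hd
  by_cases hd0 : d = 0
  · subst hd0
    exact h0
  · obtain ⟨l, hl⟩ : ∃ l, d l ≠ 0 := by
      by_contra hcon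
      push Not at hcon
      exact hd0 (Finsupp.ext hcon)
    set d' := d - Finsupp.single l 1 with hd'
    have hdd : d' + Finsupp.single l 1 = d := by
      rw [hd']
      exact tsub_add_cancel_of_le (by
        rw [Finsupp.single_le_iff]
        omega)
    have hdeg : d'.degree < n := by
      have h1 : d.degree = d'.degree + 1 := by
        rw [← hdd, map_add, Finsupp.degree_single]
      omega
    have h2 := H930.mem_ordI'.1 (h l) d' hdeg
    rw [MvPowerSeries.coeff_pderiv, hdd] at h2
    rcases mul_eq_zero.1 h2 with h3 | h3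
    · exact h3
    · exfalso
      have : ((d' l + 1 : ℕ) : K) = 0 := by push_cast; exact h3
      exact Nat.succ_ne_zero _ (Nat.cast_eq_zero.1 this)

/-- **[R6] (i)**: tangential derivations at a point, and jets. -/
theorem exists_derivations [CharZero K] {c : ℕ} (p : σ → K) (f : Fin c → MvPolynomial σ K)
    (hf : ∀ i, eval p (f i) = 0) (hind : LinearIndependent K (fun i => H930.grad p (f i)))
    {V : ℕ → Submodule K (MvPolynomial σ K)} (hV : H580.IsFilt V)
    (hder : ∀ n i F, F ∈ V n → pderiv i F ∈ V n) (T₁ : ℕ) (hfT : ∀ j, f j ∈ V T₁) :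
    ∃ (e : ℕ) (D : Fin e → Derivation K (MvPolynomial σ K) (MvPolynomial σ K)),
      e + c = Fintype.card σ ∧
      (∀ m j, D m (f j) = 0) ∧ (∀ m n F, F ∈ V n → D m F ∈ V (n + c * T₁)) ∧
      ∀ n F, (∀ l : List (Fin e), l.length < n → eval p (word D l F) = 0) →
        F ∈ H930.J p f n := by
  classical
  obtain ⟨e, he, φ, -, -, -, -, hφf, hφ, -⟩ := H930.exists_germ p f hf hind
  obtain ⟨e', he', b, hb1, hb2⟩ := H930.exists_basis (fun i => H930.grad p (f i)) hind
  obtain rfl : e = e' := by omega
  have hcard : Fintype.card (Fin c ⊕ Fin e) = Fintype.card σ := by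
    rw [Fintype.card_sum, Fintype.card_fin, Fintype.card_fin]
    omega
  let e₀ : Fin c ⊕ Fin e ≃ σ := Fintype.equivOfCardEq hcard
  let g : Fin c ⊕ Fin e → MvPolynomial σ K :=
    Sum.elim f (fun m => ∑ j, C (b.repr (Pi.single j 1) (Sum.inl m)) * X j)
  have hgr : ∀ m i, pderiv i (g (Sum.inr m)) = C (b.repr (Pi.single i 1) (Sum.inl m)) := by
    intro m i
    change pderiv i (∑ j, C (b.repr (Pi.single j 1) (Sum.inl m)) * X j) = _
    rw [map_sum, Finset.sum_eq_single i]
    · rw [pderiv_C_mul, pderiv_X_self, mul_one]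
    · intro j _ hj
      rw [pderiv_C_mul, pderiv_X_of_ne hj, mul_zero]
    · intro h
      exact absurd (Finset.mem_univ i) h
  -- the Jacobian at `p` is invertible
  have hdet : eval p (H275.jac e₀ g).det ≠ 0 := by
    have h1 : eval p (H275.jac e₀ g).det = ((H275.jac e₀ g).map (eval p)).det :=
      RingHom.map_det (eval p) (H275.jac e₀ g)
    let B : Matrix (Fin c ⊕ Fin e) (Fin c ⊕ Fin e) K :=
      Matrix.of fun b' a' => b a'.swap (e₀ b')
    have h2 : ((H275.jac e₀ g).map (eval p)) * B = 1 := by
      ext a a'
      rw [Matrix.mul_apply]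
      have h3 : ∀ b', ((H275.jac e₀ g).map (eval p)) a b' * B b' a' =
          (fun j => eval p (pderiv j (g a)) * b a'.swap j) (e₀ b') := fun b' => rfl
      rw [Finset.sum_congr rfl (fun b' _ => h3 b'),
        Equiv.sum_comp e₀ (fun j => eval p (pderiv j (g a)) * b a'.swap j)]
      rcases a with i | m
      · rcases a' with i' | m'
        · have := hb2 i' i
          change ∑ j, H930.grad p (f i) j * b (Sum.inr i') j = _
          rw [this, Matrix.one_apply]
          simp
        · have := hb1 m' i
          change ∑ j, H930.grad p (f i) j * b (Sum.inl m') j = _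
          rw [this, Matrix.one_apply]
          simp
      · have h4 : ∀ j, eval p (pderiv j (g (Sum.inr m))) * b a'.swap j =
            b a'.swap j * b.repr (Pi.single j 1) (Sum.inl m) := by
          intro j
          rw [hgr, eval_C, mul_comm]
        rw [Finset.sum_congr rfl (fun j _ => h4 j), H930.basis_id2, Matrix.one_apply]
        rcases a' with i' | m'
        · simp
        · simp
    rw [h1]
    intro h0
    have h5 := congrArg Matrix.det h2
    rw [Matrix.det_mul, h0, zero_mul, Matrix.det_one] at h5
    exact zero_ne_one h5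
  have hunit : IsUnit (φ (H275.jac e₀ g).det) := by
    rw [MvPowerSeries.isUnit_iff_constantCoeff, constantCoeff_of_germ p f φ hφ]
    exact isUnit_iff_ne_zero.2 hdet
  -- the derivations along `φ` given by the power series derivations are combinations
  have hcomb : ∀ l : Fin e, ∃ a : Fin e → MvPowerSeries (Fin e) K,
      ∀ F, MvPowerSeries.pderiv K l (φ F) = ∑ j, a j * φ (H275.cof e₀ g j F) := by
    intro l
    refine H275.exists_comb e₀ g φ hunit
      (fun m => φ.toLinearMap.comp (H275.cof e₀ g m).toLinearMap) ?_ ?_ ?_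
      ((MvPowerSeries.pderiv K l).toLinearMap.comp φ.toLinearMap) ?_ ?_
    · intro m F G
      change φ (H275.cof e₀ g m (F * G)) = _
      rw [Derivation.leibniz, map_add, smul_eq_mul, smul_eq_mul, map_mul, map_mul]
      rfl
    · intro m k
      change φ (H275.cof e₀ g m (g (Sum.inl k))) = 0
      rw [H275.cof_g, if_neg (by simp), map_zero]
    · have hM : (Matrix.of fun m j => (φ.toLinearMap.comp (H275.cof e₀ g j).toLinearMap)
          (g (Sum.inr m)) : Matrix (Fin e) (Fin e) (MvPowerSeries (Fin e) K)) =
          φ (H275.jac e₀ g).det • (1 : Matrix (Fin e) (Fin e) (MvPowerSeries (Fin e) K)) := by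
        ext1 m j
        change φ (H275.cof e₀ g j (g (Sum.inr m))) = _
        rw [H275.cof_g, Matrix.smul_apply, Matrix.one_apply]
        by_cases h : m = j
        · subst h
          simp
        · rw [if_neg (by simpa using h), if_neg h]
          simp
      rw [hM, Matrix.det_smul, Matrix.det_one, mul_one]
      exact hunit.pow _
    · intro F G
      change MvPowerSeries.pderiv K l (φ (F * G)) = _
      rw [map_mul, Derivation.leibniz]
      rfl
    · intro k
      change MvPowerSeries.pderiv K l (φ (f k)) = 0
      rw [hφf, map_zero]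
  refine ⟨e, fun m => H275.cof e₀ g m, he, ?_, ?_, ?_⟩
  · intro m j
    have h := H275.cof_g e₀ g m (Sum.inl j)
    rw [if_neg (by simp)] at h
    exact h
  · intro m n F hF
    have h := cof_mem hV hder e₀ g T₁ (fun j => hfT j)
      (fun m i => by rw [hgr]; exact C_mem_filt hV _) m n F hF
    rwa [Fintype.card_fin] at h
  · intro n
    induction n with
    | zero =>
      intro F _
      rw [H930.J_zero]
      trivial
    | succ n ih =>
      intro F hF
      rcases Nat.eq_zero_or_pos n with hn | hn
      · subst hn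
        exact J_one_of_mem_mx p f (hF [] (by simp))
      · have h1 : F ∈ H930.J p f n := ih F (fun l hl => hF l (by omega))
        have h2 : ∀ m, H275.cof e₀ g m F ∈ H930.J p f n := by
          intro m
          refine ih _ (fun l hl => ?_)
          have h3 := hF (l ++ [m]) (by simp; omega)
          rwa [word_append] at h3
        rw [← hφ]
        refine mem_ordI_succ_of_pderiv (φ F) n ?_ ?_
        · rw [constantCoeff_of_germ p f φ hφ]
          exact hF [] (by simp)
        · intro l
          obtain ⟨a, ha⟩ := hcomb l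
          rw [ha F]
          refine Ideal.sum_mem _ (fun j _ => ?_)
          exact Ideal.mul_mem_left _ _ ((hφ n _).2 (h2 j))

end jet

end Vale.Agent.P054.T2.H307
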