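import Vale.Agent.P054.T2.H307.Fam
import Vale.Agent.P054.T2.H686.TightWin

/-!
# Section A, main theorem (P054, T2 project)

From a set `E₀` of edges: a uniform subset `E'` for all families of `Fam.lean`, with a tight window.
-/

namespace Vale.Agent.P054.T2.H307

open Finset MvPolynomial Module
open Vale.Agent.P054.T2.H686 (Crd leaf mu meet Qf gpt upt)
open Vale.Agent.P054.T2.H580 (Vw IsFilt rkF)
open Vale.Agent.P054.T2.H930 (Pt ptc edgePt)

section general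

variable {ι ι' σ K : Type*} [Field K]

theorem van_congr (x : ι → σ → K) (π : ι' → ι) (A' : Finset ι') (A : Finset ι)
    (h : ∀ e, e ∈ A ↔ ∃ e' ∈ A', π e' = e) (W : Submodule K (MvPolynomial σ K)) :
    van (fun e' => x (π e')) A' W = van x A W := by
  ext f
  rw [mem_van, mem_van]
  constructor
  · rintro ⟨h1, h2⟩
    refine ⟨h1, fun e he => ?_⟩
    obtain ⟨e', he', rfl⟩ := (h e).1 he
    exact h2 e' he'
  · rintro ⟨h1, h2⟩
    exact ⟨h1, fun e' he' => h2 _ ((h _).2 ⟨e', he', rfl⟩)⟩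

theorem gr_congr (x : ι → σ → K) (π : ι' → ι) (A' : Finset ι') (A : Finset ι)
    (h : ∀ e, e ∈ A ↔ ∃ e' ∈ A', π e' = e) (W : Submodule K (MvPolynomial σ K)) (z : σ → K) :
    gr (fun e' => x (π e')) A' W z = gr x A W z := by
  unfold gr gsp
  rw [van_congr x π A' A h W]

/-- the rank of a nonempty set of points is at least one -/
theorem one_le_rkF {V : ℕ → Submodule K (MvPolynomial σ K)} (hV : IsFilt V)
    {Y : Finset (σ → K)} (hY : Y.Nonempty) (T : ℕ) : 1 ≤ rkF V Y T := by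
  obtain ⟨p, hp⟩ := hY
  have hfin := hV.fin T
  unfold rkF
  rw [Nat.one_le_iff_ne_zero]
  intro h0
  rw [Submodule.finrank_eq_zero] at h0
  have h1 : H441.resA Y (1 : MvPolynomial σ K) ∈ (V T).map (H441.resA Y).toLinearMap :=
    Submodule.mem_map_of_mem (hV.mono (Nat.zero_le T) hV.one)
  rw [h0, Submodule.mem_bot, map_one] at h1
  have h2 := congrFun h1 ⟨p, hp⟩
  exact one_ne_zero h2

theorem rtd_mono : Monotone (restrictTotalDegree σ K) := by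
  intro a b h g hg
  rw [mem_restrictTotalDegree] at hg ⊢
  exact hg.trans h

theorem pderiv_mem_rtd (m : ℕ) (i : σ) (F : MvPolynomial σ K)
    (hF : F ∈ restrictTotalDegree σ K m) : pderiv i F ∈ restrictTotalDegree σ K m := by
  rw [← H580.Vw_one_eq] at hF ⊢
  exact H580.Vw_mono _ (Nat.sub_le _ _) (H580.pderiv_mem_Vw _ hF i)

theorem X_mem_rtd (i : σ) : (X i : MvPolynomial σ K) ∈ restrictTotalDegree σ K 1 := by
  rw [mem_restrictTotalDegree]
  exact (totalDegree_X i).le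

end general

section main

variable {K : Type*} [Field K] [CharZero K] {n : ℕ}

/-- the steps of the chain, as a function of `β` -/
def stp (β C₁ : ℕ) : ℕ := β / C₁

theorem stp_spec {β C₁ N q M : ℕ} (hC : q * M + N + 3 ≤ C₁) (hβ : C₁ ≤ β) :
    0 < stp β C₁ ∧ stp β C₁ * (N + 2) + 1 ≤ β ∧ β ≤ C₁ * (stp β C₁ + 1) ∧
      q * (stp β C₁ * M) ≤ β := by
  have hC0 : 0 < C₁ := by omega
  have h1 : 0 < stp β C₁ := Nat.div_pos hβ hC0
  have h2 : stp β C₁ * C₁ ≤ β := Nat.div_mul_le_self β C₁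
  have h3 : β < C₁ * (stp β C₁ + 1) := Nat.lt_mul_div_succ β hC0
  refine ⟨h1, ?_, h3.le, ?_⟩
  · have h4 : stp β C₁ * (N + 3) ≤ stp β C₁ * C₁ := Nat.mul_le_mul_left _ (by omega)
    have h5 : stp β C₁ * (N + 3) = stp β C₁ * (N + 2) + stp β C₁ := by ring
    omega
  · have h4 : stp β C₁ * (q * M) ≤ stp β C₁ * C₁ := Nat.mul_le_mul_left _ (by omega)
    calc q * (stp β C₁ * M) = stp β C₁ * (q * M) := by ring
      _ ≤ β := h4.trans h2

/-- (LO) for the family `F` and all subsets of `E'` of density at least `1 / 2` -/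
theorem lo_F {E' : Finset (Ed n K)} (hE' : E'.Nonempty) {v : FI × ℕ → ℕ}
    (β L K' C₁ : ℕ) (hU : IsUnif (cA n K (β ^ L)) (JA K') β E' v)
    (hC₁ : 4 * (K' * L * (JA K').card) + NN n + 3 ≤ C₁) (hβ : C₁ ≤ β)
    (A : Finset (Ed n K)) (hA : A ⊆ E') (hAcard : E'.card ≤ 2 * A.card) :
    (β ^ L) ^ (∑ k ∈ range K', ((2 * n + 1) - v (FI.F, k))) ≤
      (((C₁ ^ (2 * n + 1) * (2 * n + 1).factorial) ^ L) ^ K' *
        (β ^ L) ^ ((2 * n + 1) * (2 * n + 1))) *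
      rkF (restrictTotalDegree (Crd n) K) (pts xF A) ((β ^ L) ^ K') := by
  have hinf : Infinite K := Infinite.of_injective (fun m : ℕ => (m : K)) Nat.cast_injective
  have hb1 : 1 ≤ β ^ L := Nat.pow_pos (by omega)
  obtain ⟨hk, hkβ, hβk, hkJ⟩ := stp_spec (β := β) (C₁ := C₁) (N := 2 * n + 1) (q := 4)
    (M := K' * L * (JA K').card) (by unfold NN at hC₁; omega) hβ
  set k := stp β C₁ with hkdef
  have hcardC : Fintype.card (Crd n) = 2 * n + 1 := by simp [Crd]; ring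
  have h1 := hU.card_core' (fun j _ A B hAB _ e _ => cA_mono _ j hAB e) hA (K' * (L * k)) 4 (by
    calc 4 * (K' * (L * k) * (JA K').card) = 4 * (k * (K' * L * (JA K').card)) := by ring
      _ ≤ β := hkJ) (by omega)
  have hne : (core (cA n K (β ^ L)) (JA K') v A (K' * (L * k))).Nonempty := by
    rw [← Finset.card_pos]
    have h2 : 0 < E'.card := hE'.card_pos
    omega
  obtain ⟨e₁, he₁⟩ := hne
  have h2 := lo_core (c := cA n K (β ^ L)) (J := JA K') (v := v)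
    (H580.isFilt_total (σ := Crd n))
    (fun m i F hF => pderiv_mem_rtd m i F hF) (a := 1) (fun i => X_mem_rtd i) k β C₁ L K' hk
    (by rw [hcardC]; exact hkβ) hβk (by omega) (le_refl K')
    (isFam_F (K := K) (n := n) (β ^ L) K').isFam A he₁
  rw [hcardC, fib_unit, fib_unit, one_mul] at h2
  have h3 : 1 ≤ rkF (restrictTotalDegree (Crd n) K)
      (pts xF (core (cA n K (β ^ L)) (JA K') v A (K' * (L * k)))) 1 :=
    one_le_rkF (H580.isFilt_total (σ := Crd n)) (pts_nonempty ⟨e₁, he₁⟩) 1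
  have h5 : (β ^ L) ^ ((2 * n + 1) * ((2 * n + 1 - v (FI.F, 0)) -
      (2 * n + 1 - v (FI.F, K')))) ≤ (β ^ L) ^ ((2 * n + 1) * (2 * n + 1)) := by
    apply Nat.pow_le_pow_right hb1
    exact Nat.mul_le_mul_left _ (by omega)
  calc (β ^ L) ^ (∑ k ∈ range K', ((2 * n + 1) - v (FI.F, k)))
      ≤ (β ^ L) ^ (∑ k ∈ range K', ((2 * n + 1) - v (FI.F, k))) *
        rkF (restrictTotalDegree (Crd n) K)
        (pts xF (core (cA n K (β ^ L)) (JA K') v A (K' * (L * k)))) 1 :=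
        Nat.le_mul_of_pos_right _ h3
    _ ≤ _ := h2
    _ ≤ _ := Nat.mul_le_mul_right _ (Nat.mul_le_mul_left _ h5)

omit [CharZero K] in
/-- the tight window for a set of edges with values in a finite set of points -/
theorem tight_window_ed [Infinite K] (E' : Finset (Ed n K))
    (h0 : ∀ e ∈ E', e.1.1 0 ≠ e.2.1 0) (hq : ∀ e ∈ E', Qf (e.1 - e.2) = 0)
    (Sg : Finset (ZK n K)) (hSg : ∀ e ∈ E', e.1 ∈ Sg ∧ e.2 ∈ Sg)
    (b t K' m c₀ Λ C W : ℕ) (hb : 2 ≤ b)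
    (hΛ : Sg.card ^ 2 ≤ Λ * E'.card) (vF v1 v2 : ℕ → ℕ)
    (hvF : ∀ k l : ℕ, k ≤ l → l < K' → vF k ≤ vF l)
    (hv1 : ∀ k l : ℕ, k ≤ l → l < K' → v1 k ≤ v1 l)
    (hv2 : ∀ k l : ℕ, k ≤ l → l < K' → v2 k ≤ v2 l)
    (hgrF : ∀ k < K', ∀ e ∈ E', vF k ≤ cA n K b (FI.F, k) E' e)
    (hgr1 : ∀ k < K', ∀ e ∈ E', v1 k ≤ cA n K b (FI.L1, k) E' e)
    (hgr2 : ∀ k < K', ∀ e ∈ E', v2 k ≤ cA n K b (FI.L2, k) E' e)
    (hex : ∃ e ∈ E', ∀ k < K',
      cA n K b (FI.L1, k) E' e ≤ v1 k ∧ cA n K b (FI.L2, k) E' e ≤ v2 k)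
    (hLO : ∀ A ⊆ E', E'.card ≤ 2 * A.card →
      b ^ (∑ k ∈ range K', ((2 * n + 1) - vF k)) ≤
        c₀ * rkF (restrictTotalDegree (Crd n) K) (pts xF A) (b ^ K'))
    (hC : c₀ * (8 * Λ * ((2 * (n + 1)) ^ n) ^ 2) ≤ t * b ^ C)
    (ht : t ^ (m + 1) ≤ b ^ (m * K'))
    (hK : (m + 1) * (C + (3 * (2 * n + 1) + 1) * W) ≤ K') :
    ∃ k₀, k₀ + W ≤ K' ∧ ∀ k, k₀ ≤ k → k < k₀ + W →
      vF k = vF k₀ ∧ v1 k = v1 k₀ ∧ v2 k = v2 k₀ ∧
      (2 * n + 1) - vF k = (n - v1 k) + (n - v2 k) := by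
  classical
  let S := {s // s ∈ Sg}
  let z : S → ZK n K := Subtype.val
  let π : S × S → Ed n K := fun e => (e.1.1, e.2.1)
  have hπ : Function.Injective π := by
    rintro ⟨a, b⟩ ⟨c, d⟩ h
    simp only [π, Prod.mk.injEq] at h
    exact Prod.ext (Subtype.ext h.1) (Subtype.ext h.2)
  let ES : Finset (S × S) := Finset.univ.filter (fun e => π e ∈ E')
  have hES : ∀ e, e ∈ ES ↔ π e ∈ E' := fun e => by simp [ES]
  have hsurj : ∀ e ∈ E', ∃ e' : S × S, π e' = e := fun e he =>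
    ⟨(⟨e.1, (hSg e he).1⟩, ⟨e.2, (hSg e he).2⟩), rfl⟩
  have himg : ES.image π = E' := by
    ext e
    rw [Finset.mem_image]
    constructor
    · rintro ⟨e', he', rfl⟩
      exact (hES e').1 he'
    · intro he
      obtain ⟨e', rfl⟩ := hsurj e he
      exact ⟨e', (hES e').2 he, rfl⟩
  have hcardES : ES.card = E'.card := by
    rw [← himg, Finset.card_image_of_injective _ hπ]
  have hgrF' : ∀ (k : ℕ) (e : S × S), gr (gpt z) ES (restrictTotalDegree (Crd n) K (b ^ k))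
      (gpt z e) = cA n K b (FI.F, k) E' (π e) := by
    intro k e
    change gr (fun e' => xF (π e')) ES _ _ = gfL xF (fun _ => ()) _ _ _ E' (π e)
    unfold gfL
    rw [fib_unit, grL_id, one_mul]
    exact gr_congr xF π ES E' (fun e => by
      rw [← himg, Finset.mem_image]) _ _
  have hgr1' : ∀ (k : ℕ) (e : S × S), gr (upt z) (ES.filter fun x => x.1 = e.1)
      (restrictTotalDegree (Fin n) K (b ^ k)) (upt z e) = cA n K b (FI.L1, k) E' (π e) := by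
    intro k e
    change gr (fun e' => xL (π e')) (ES.filter fun x => x.1 = e.1) _ _ =
      gfL xL Prod.fst _ _ _ E' (π e)
    unfold gfL
    rw [grL_id, one_mul]
    refine gr_congr xL π _ _ (fun e₁ => ?_) _ _
    rw [mem_fib]
    constructor
    · rintro ⟨h1, h2⟩
      obtain ⟨e', rfl⟩ := hsurj e₁ h1
      exact ⟨e', Finset.mem_filter.2 ⟨(hES e').2 h1, Subtype.ext h2⟩, rfl⟩
    · rintro ⟨e', he', rfl⟩
      obtain ⟨h1, h2⟩ := Finset.mem_filter.1 he'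
      exact ⟨(hES e').1 h1, congrArg Subtype.val h2⟩
  have hgr2' : ∀ (k : ℕ) (e : S × S), gr (upt z) (ES.filter fun x => x.2 = e.2)
      (restrictTotalDegree (Fin n) K (b ^ k)) (upt z e) = cA n K b (FI.L2, k) E' (π e) := by
    intro k e
    change gr (fun e' => xL (π e')) (ES.filter fun x => x.2 = e.2) _ _ =
      gfL xL Prod.snd _ _ _ E' (π e)
    unfold gfL
    rw [grL_id, one_mul]
    refine gr_congr xL π _ _ (fun e₁ => ?_) _ _
    rw [mem_fib]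
    constructor
    · rintro ⟨h1, h2⟩
      obtain ⟨e', rfl⟩ := hsurj e₁ h1
      exact ⟨e', Finset.mem_filter.2 ⟨(hES e').2 h1, Subtype.ext h2⟩, rfl⟩
    · rintro ⟨e', he', rfl⟩
      obtain ⟨h1, h2⟩ := Finset.mem_filter.1 he'
      exact ⟨(hES e').1 h1, congrArg Subtype.val h2⟩
  obtain ⟨e₀, he₀, hty⟩ := hex
  obtain ⟨e₀', he₀'⟩ := hsurj e₀ he₀
  subst he₀'
  refine H686.tight_window_edges z ES ?_ ?_ b t K' m c₀ Λ C W hb ?_
    vF v1 v2 hvF hv1 hv2 ?_ ?_ ?_ ⟨e₀', (hES _).2 he₀, ?_⟩ ?_ hC ht hK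
  · intro e he
    exact h0 _ ((hES e).1 he)
  · intro e he
    exact hq _ ((hES e).1 he)
  · have h1 : Fintype.card S = Sg.card := Fintype.card_coe Sg
    rw [h1, hcardES]
    exact hΛ
  · intro k hk e he
    rw [hgrF']
    exact hgrF k hk _ ((hES e).1 he)
  · intro k hk e he
    rw [hgr1']
    exact hgr1 k hk _ ((hES e).1 he)
  · intro k hk e he
    rw [hgr2']
    exact hgr2 k hk _ ((hES e).1 he)
  · intro k hk
    rw [hgr1', hgr2']
    exact hty k hk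
  · intro A hA hAcard
    have hA' : A.image π ⊆ E' := by
      rw [← himg]
      exact Finset.image_subset_image hA
    have hcA : (A.image π).card = A.card := Finset.card_image_of_injective _ hπ
    have h4 : pts xF (A.image π) = A.image (gpt z) := by
      ext w
      rw [mem_pts, Finset.mem_image]
      constructor
      · rintro ⟨e, he, rfl⟩
        obtain ⟨e', he', rfl⟩ := Finset.mem_image.1 he
        exact ⟨e', he', rfl⟩
      · rintro ⟨e', he', rfl⟩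
        exact ⟨π e', Finset.mem_image_of_mem π he', rfl⟩
    have h5 := hLO (A.image π) hA' (by rw [hcA, ← hcardES]; exact hAcard)
    rw [h4] at h5
    exact h5

/-- the numerical condition -/
theorem const_ineq (β L t c d NJ P : ℕ) (hβ1 : 1 ≤ β) (hβ2 : c * (32 * d) ≤ β)
    (hL : NJ + 1 ≤ L) :
    (c * (β ^ L) ^ P) * (8 * (4 * t * β ^ NJ) * d) ≤ t * (β ^ L) ^ (P + 1) := by
  have h1 : β * β ^ NJ ≤ β ^ L := by
    rw [← pow_succ']
    exact Nat.pow_le_pow_right hβ1 hL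
  calc (c * (β ^ L) ^ P) * (8 * (4 * t * β ^ NJ) * d)
      = (c * (32 * d)) * β ^ NJ * (t * (β ^ L) ^ P) := by ring
    _ ≤ β * β ^ NJ * (t * (β ^ L) ^ P) := Nat.mul_le_mul_right _ (Nat.mul_le_mul_right _ hβ2)
    _ ≤ β ^ L * (t * (β ^ L) ^ P) := Nat.mul_le_mul_right _ h1
    _ = _ := by rw [pow_succ]; ring

/-- **Section A, main theorem.**  `E₀` edges with end points in `Sg`, `|Sg|² ≤ 4 t |E₀|`;
`b = β ^ L`, `b ^ (m K') ≥ t ^ (m + 1)`.  There is a subset `E'` of `E₀`, uniform for all families,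
of density `≥ β ^ (-N |J|)`, and a tight window of length `W`. -/
theorem secA (E₀ : Finset (Ed n K)) (hE₀ : E₀.Nonempty)
    (h0 : ∀ e ∈ E₀, e.1.1 0 ≠ e.2.1 0) (hq : ∀ e ∈ E₀, Qf (e.1 - e.2) = 0)
    (Sg : Finset (ZK n K)) (hSg : ∀ e ∈ E₀, e.1 ∈ Sg ∧ e.2 ∈ Sg) (t : ℕ)
    (hΛ : Sg.card ^ 2 ≤ 4 * t * E₀.card)
    (β L K' m W C₁ : ℕ) (hC₁ : 4 * (K' * L * (JA K').card) + NN n + 3 ≤ C₁) (hβ : C₁ ≤ β)
    (hβ2 : ((C₁ ^ (2 * n + 1) * (2 * n + 1).factorial) ^ L) ^ K' *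
      (32 * ((2 * (n + 1)) ^ n) ^ 2) ≤ β)
    (hL : NN n * (JA K').card + 1 ≤ L)
    (ht : t ^ (m + 1) ≤ (β ^ L) ^ (m * K'))
    (hK : (m + 1) * (((2 * n + 1) * (2 * n + 1) + 1) + (3 * (2 * n + 1) + 1) * W) ≤ K') :
    ∃ E' ⊆ E₀, E'.Nonempty ∧ ∃ v : FI × ℕ → ℕ, (∀ j ∈ JA K', v j ≤ NN n) ∧
      E₀.card ≤ β ^ (NN n * (JA K').card) * E'.card ∧
      IsUnif (cA n K (β ^ L)) (JA K') β E' v ∧
      ∃ k₀, k₀ + W ≤ K' ∧ ∀ k, k₀ ≤ k → k < k₀ + W →
        v (FI.F, k) = v (FI.F, k₀) ∧ v (FI.L1, k) = v (FI.L1, k₀) ∧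
        v (FI.L2, k) = v (FI.L2, k₀) ∧
        (2 * n + 1) - v (FI.F, k) = (n - v (FI.L1, k)) + (n - v (FI.L2, k)) := by
  have hinf : Infinite K := Infinite.of_injective (fun m : ℕ => (m : K)) Nat.cast_injective
  have hβ1 : 1 ≤ β := by omega
  have hb2 : 2 ≤ β ^ L := by
    have h1 : 2 ≤ β := by omega
    calc 2 ≤ β := h1
      _ = β ^ 1 := (pow_one β).symm
      _ ≤ β ^ L := Nat.pow_le_pow_right hβ1 (by omega)
  obtain ⟨E', hE'sub, hE'ne, v, hvN, hdens, hU⟩ := exists_unif E₀ hE₀ (JA K')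
    (cA n K (β ^ L)) (NN n) β
    hβ1 (fun j _ A _ e _ => cA_le _ j A e) (fun j _ A B hAB _ e _ => cA_mono _ j hAB e)
  refine ⟨E', hE'sub, hE'ne, v, hvN, hdens, hU, ?_⟩
  have hJcard : (JA K').card < β := by
    have h1 : 1 ≤ NN n := by unfold NN; omega
    have h3 : 1 ≤ K' := by
      refine le_trans ?_ hK
      have : 1 ≤ (2 * n + 1) * (2 * n + 1) + 1 + (3 * (2 * n + 1) + 1) * W := by omega
      exact Nat.mul_pos (Nat.succ_pos m) this
    have h4 : (JA K').card ≤ K' * L * (JA K').card :=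
      Nat.le_mul_of_pos_left _ (Nat.mul_pos h3 (by omega))
    omega
  obtain ⟨e₀, he₀, hty⟩ := H686.exists_typical hU
    (fun j _ A B hAB _ e _ => cA_mono _ j hAB e) hE'ne hJcard
  have hm1 : ∀ i j, i ≤ j → j < K' → v (FI.F, i) ≤ v (FI.F, j) := fun i j hij hj =>
    hU.famL_mono (idx := fun i => (FI.F, i)) hE'ne (by omega) rtd_mono (by omega)
      (isFam_F (K := K) (n := n) (β ^ L) K') hij hj.le
  have hm2 : ∀ i j, i ≤ j → j < K' → v (FI.L1, i) ≤ v (FI.L1, j) := fun i j hij hj =>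
    hU.famL_mono (idx := fun i => (FI.L1, i)) hE'ne (by omega) rtd_mono (by omega)
      (isFam_L1 (K := K) (n := n) (β ^ L) K') hij hj.le
  have hm3 : ∀ i j, i ≤ j → j < K' → v (FI.L2, i) ≤ v (FI.L2, j) := fun i j hij hj =>
    hU.famL_mono (idx := fun i => (FI.L2, i)) hE'ne (by omega) rtd_mono (by omega)
      (isFam_L2 (K := K) (n := n) (β ^ L) K') hij hj.le
  have hd : Sg.card ^ 2 ≤ (4 * t * β ^ (NN n * (JA K').card)) * E'.card := by
    calc Sg.card ^ 2 ≤ 4 * t * E₀.card := hΛ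
      _ ≤ 4 * t * (β ^ (NN n * (JA K').card) * E'.card) := Nat.mul_le_mul_left _ hdens
      _ = _ := by ring
  have hCC := const_ineq β L t (((C₁ ^ (2 * n + 1) * (2 * n + 1).factorial) ^ L) ^ K')
    (((2 * (n + 1)) ^ n) ^ 2) (NN n * (JA K').card) ((2 * n + 1) * (2 * n + 1)) hβ1 hβ2 hL
  have hLO : ∀ A ⊆ E', E'.card ≤ 2 * A.card →
      (β ^ L) ^ (∑ k ∈ range K', ((2 * n + 1) - v (FI.F, k))) ≤
        (((C₁ ^ (2 * n + 1) * (2 * n + 1).factorial) ^ L) ^ K' *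
          (β ^ L) ^ ((2 * n + 1) * (2 * n + 1))) *
        rkF (restrictTotalDegree (Crd n) K) (pts xF A) ((β ^ L) ^ K') :=
    fun A hA hAc => lo_F hE'ne β L K' C₁ hU hC₁ hβ A hA hAc
  have hgF : ∀ k < K', ∀ e ∈ E', v (FI.F, k) ≤ cA n K (β ^ L) (FI.F, k) E' e :=
    fun k hk e he => hU.le (FI.F, k) (mem_JA_F hk.le) E' (Finset.Subset.refl _) e he
  have hg1 : ∀ k < K', ∀ e ∈ E', v (FI.L1, k) ≤ cA n K (β ^ L) (FI.L1, k) E' e :=
    fun k hk e he => hU.le (FI.L1, k) (mem_JA_L1 hk.le) E' (Finset.Subset.refl _) e he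
  have hg2 : ∀ k < K', ∀ e ∈ E', v (FI.L2, k) ≤ cA n K (β ^ L) (FI.L2, k) E' e :=
    fun k hk e he => hU.le (FI.L2, k) (mem_JA_L2 hk.le) E' (Finset.Subset.refl _) e he
  have hex : ∃ e ∈ E', ∀ k < K',
      cA n K (β ^ L) (FI.L1, k) E' e ≤ v (FI.L1, k) ∧
      cA n K (β ^ L) (FI.L2, k) E' e ≤ v (FI.L2, k) :=
    ⟨e₀, he₀, fun k hk => ⟨(hty (FI.L1, k) (mem_JA_L1 hk.le)).le,
      (hty (FI.L2, k) (mem_JA_L2 hk.le)).le⟩⟩
  have h0' : ∀ e ∈ E', e.1.1 0 ≠ e.2.1 0 := fun e he => h0 e (hE'sub he)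
  have hq' : ∀ e ∈ E', Qf (e.1 - e.2) = 0 := fun e he => hq e (hE'sub he)
  have hSg' : ∀ e ∈ E', e.1 ∈ Sg ∧ e.2 ∈ Sg := fun e he => hSg e (hE'sub he)
  generalize hbdef : β ^ L = b at *
  generalize hcdef : ((C₁ ^ (2 * n + 1) * (2 * n + 1).factorial) ^ L) ^ K' = c₁ at *
  exact tight_window_ed E' h0' hq' Sg hSg' b t K' m
    (c₁ * b ^ ((2 * n + 1) * (2 * n + 1))) (4 * t * β ^ (NN n * (JA K').card))
    ((2 * n + 1) * (2 * n + 1) + 1) W hb2 hd
    (fun k => v (FI.F, k)) (fun k => v (FI.L1, k)) (fun k => v (FI.L2, k)) hm1 hm2 hm3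
    hgF hg1 hg2 hex hLO hCC ht hK

end main

end Vale.Agent.P054.T2.H307
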