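import Vale.Agent.P054.T2.H307.Jet
import Vale.Agent.P054.T2.H580.FiltDense

/-!
# Common systems, general form (P054, T2 project, section A, (SYS))

`grL x A W L z` is the rank of the images under a linear map `L` of the gradients at `z` of the
elements of `W` vanishing at the points `x e`, `e ∈ A` (`L = id`: the gradient rank; `L` a
projection: the vertical rank).
-/

namespace Vale.Agent.P054.T2.H307

open Finset MvPolynomial Module

variable {ι σ K : Type*} [Field K]

/-- rank of the images under `L` of the gradients -/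
noncomputable def grL {M : Type*} [AddCommGroup M] [Module K M] (x : ι → σ → K) (A : Finset ι)
    (W : Submodule K (MvPolynomial σ K)) (L : (σ → K) →ₗ[K] M) (z : σ → K) : ℕ :=
  finrank K ((van x A W).map (L ∘ₗ grad z))

theorem grL_id (x : ι → σ → K) (A : Finset ι) (W : Submodule K (MvPolynomial σ K)) (z : σ → K) :
    grL x A W LinearMap.id z = gr x A W z := rfl

variable {M : Type*} [AddCommGroup M] [Module K M]

theorem finite_map_grad [Fintype σ] (U : Submodule K (MvPolynomial σ K)) (L : (σ → K) →ₗ[K] M)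
    (z : σ → K) : Module.Finite K (U.map (L ∘ₗ grad z)) := by
  rw [Submodule.map_comp]
  infer_instance

theorem grL_le [Fintype σ] (x : ι → σ → K) (A : Finset ι) (W : Submodule K (MvPolynomial σ K))
    (L : (σ → K) →ₗ[K] M) (z : σ → K) : grL x A W L z ≤ Fintype.card σ := by
  unfold grL
  rw [Submodule.map_comp]
  exact (Submodule.finrank_map_le _ _).trans (gr_le x A W z)

theorem grL_mono [Fintype σ] {x : ι → σ → K} {A B : Finset ι} (h : A ⊆ B)
    {W W' : Submodule K (MvPolynomial σ K)} (hW : W ≤ W') (L : (σ → K) →ₗ[K] M) (z : σ → K) :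
    grL x B W L z ≤ grL x A W' L z := by
  unfold grL
  have := finite_map_grad (van x A W') L z
  exact Submodule.finrank_mono (Submodule.map_mono (van_mono h hW))

/-- **(SYS), extension form.**  `v k ≤ grL x A₀ (W k) L (x e)` for all `e ∈ A₁`, `k < K'`; a first
part `f₀ j`, `j < n₀`, with `L`-independent gradients is given.  It can be extended to `n ≤ v (K'-1)`
polynomials, the `j`-th one in `van x A₀ (W κ)`, `κ = #{k < K' | v k ≤ j}`. -/
theorem exists_sys_from [Infinite K] [Fintype σ] (x : ι → σ → K) {A₀ A₁ : Finset ι}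
    (W : ℕ → Submodule K (MvPolynomial σ K)) (L : (σ → K) →ₗ[K] M) (K' : ℕ) (hK : 0 < K')
    (v : ℕ → ℕ) (hv : ∀ k l : ℕ, k ≤ l → l < K' → v k ≤ v l)
    (hgr : ∀ k < K', ∀ e ∈ A₁, v k ≤ grL x A₀ (W k) L (x e))
    (n₀ : ℕ) (f₀ : ℕ → MvPolynomial σ K)
    (hf₀ : ∀ e ∈ A₁, LinearIndependent K (fun j : Fin n₀ => L (grad (x e) (f₀ j))))
    (n : ℕ) (hn₀ : n₀ ≤ n) (hn : n ≤ v (K' - 1)) :
    ∃ f : ℕ → MvPolynomial σ K,
      (∀ j < n₀, f j = f₀ j) ∧
      (∀ j, n₀ ≤ j → j < n → f j ∈ van x A₀ (W ((range K').filter (fun k => v k ≤ j)).card)) ∧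
      ∀ e ∈ A₁, LinearIndependent K (fun j : Fin n => L (grad (x e) (f j))) := by
  classical
  induction n, hn₀ using Nat.le_induction with
  | base => exact ⟨f₀, fun _ _ => rfl, fun j h1 h2 => by omega, hf₀⟩
  | succ n hn₀ ih =>
    obtain ⟨f, hf1, hf2, hind⟩ := ih ((Nat.le_succ n).trans hn)
    set κ := ((range K').filter (fun k => v k ≤ n)).card with hκ
    have hκ1 : κ ≤ K' - 1 := count_le K' v hv n (K' - 1) (by omega)
    have hκ2 : κ < K' := by omega
    have hκ3 : n < v κ := lt_at_count K' v hv n hκ2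
    obtain ⟨g, hg, hg'⟩ := exists_avoid_subspaces (van x A₀ (W κ)) A₁
      (fun e => (Submodule.span K (Set.range (fun j : Fin n => L (grad (x e) (f j))))).comap
        (L ∘ₗ grad (x e)))
      (by
        intro e he hle
        have h1 : (van x A₀ (W κ)).map (L ∘ₗ grad (x e)) ≤
            Submodule.span K (Set.range (fun j : Fin n => L (grad (x e) (f j)))) := by
          rw [Submodule.map_le_iff_le_comap]
          exact hle
        have hfinS : Module.Finite K
            (Submodule.span K (Set.range (fun j : Fin n => L (grad (x e) (f j))))) :=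
          Module.Finite.span_of_finite K (Set.finite_range _)
        have h2 := Submodule.finrank_mono h1
        have h3 : v κ ≤ finrank K ((van x A₀ (W κ)).map (L ∘ₗ grad (x e))) := hgr κ hκ2 e he
        rw [finrank_span_eq_card (hind e he), Fintype.card_fin] at h2
        omega)
    refine ⟨Function.update f n g, ?_, ?_, ?_⟩
    · intro j hj
      rw [Function.update_of_ne (by omega)]
      exact hf1 j hj
    · intro j hj1 hj2
      by_cases hj : j = n
      · subst hj
        rw [Function.update_self]
        exact hg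
      · rw [Function.update_of_ne hj]
        exact hf2 j hj1 (by omega)
    · intro e he
      rw [linearIndependent_finSucc']
      have h1 : Fin.init (fun j : Fin (n + 1) => L (grad (x e) (Function.update f n g j))) =
          fun j : Fin n => L (grad (x e) (f j)) := by
        funext j
        simp only [Fin.init, Fin.val_castSucc]
        rw [Function.update_of_ne (by have := j.2; omega)]
      rw [h1]
      refine ⟨hind e he, ?_⟩
      simp only [Fin.val_last, Function.update_self]
      exact hg' e he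

/-- **(SYS)** -/
theorem exists_sys [Infinite K] [Fintype σ] (x : ι → σ → K) {A₀ A₁ : Finset ι}
    (W : ℕ → Submodule K (MvPolynomial σ K)) (L : (σ → K) →ₗ[K] M) (K' : ℕ) (hK : 0 < K')
    (hW : ∀ k l : ℕ, k ≤ l → l < K' → W k ≤ W l)
    (v : ℕ → ℕ) (hv : ∀ k l : ℕ, k ≤ l → l < K' → v k ≤ v l)
    (hgr : ∀ k < K', ∀ e ∈ A₁, v k ≤ grL x A₀ (W k) L (x e)) :
    ∃ f : ℕ → MvPolynomial σ K,
      (∀ j < v (K' - 1), f j ∈ van x A₀ (W ((range K').filter (fun k => v k ≤ j)).card)) ∧
      (∀ k < K', ∀ j < v k, f j ∈ van x A₀ (W k)) ∧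
      ∀ e ∈ A₁, LinearIndependent K (fun j : Fin (v (K' - 1)) => L (grad (x e) (f j))) := by
  obtain ⟨f, -, hf, hind⟩ := exists_sys_from x W L K' hK v hv hgr 0 (fun _ => 0)
    (fun e _ => linearIndependent_empty_type) (v (K' - 1)) (Nat.zero_le _) le_rfl
  refine ⟨f, fun j hj => hf j (Nat.zero_le _) hj, ?_, hind⟩
  intro k hk j hj
  have h1 := count_le K' v hv j k hj
  exact van_mono (Finset.Subset.refl _) (hW _ _ h1 hk)
    (hf j (Nat.zero_le _) (hj.trans_le (hv k (K' - 1) (by omega) (by omega))))

/-- independence of a shorter part of the system -/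
theorem linInd_le {n m : ℕ} (h : m ≤ n) {f : ℕ → M}
    (hf : LinearIndependent K (fun j : Fin n => f j)) :
    LinearIndependent K (fun j : Fin m => f j) :=
  hf.comp (fun j : Fin m => (⟨j, j.2.trans_le h⟩ : Fin n)) (fun a b hab => by
    simpa [Fin.ext_iff] using hab)

end Vale.Agent.P054.T2.H307
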