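import Vale.Agent.P054.T2.H307.Lo
import Vale.Agent.P054.T2.H307.Unif

/-!
# Uniform sets and (LO) (P054, T2 project, section A)

`core c J v A m` is the `m`-th set of the chain starting at `A`.  For every family of function
spaces among the `c j`, the lower bound (LO) holds for the part of `A` in the fibre of `e`, for every
`e ∈ core c J v A (K L k)`.
-/

namespace Vale.Agent.P054.T2.H307

open Finset MvPolynomial Module

section core

variable {ι κ : Type*}

/-- the chain of [R1] -/
noncomputable def core (c : κ → Finset ι → ι → ℕ) (J : Finset κ) (v : κ → ℕ) (A : Finset ι) :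
    ℕ → Finset ι
  | 0 => A
  | m + 1 => by
      classical
      exact (core c J v A m).filter (fun e => ∀ j ∈ J, c j (core c J v A m) e = v j)

variable {c : κ → Finset ι → ι → ℕ} {J : Finset κ} {β : ℕ} {E' : Finset ι} {v : κ → ℕ}

@[simp] theorem core_zero (A : Finset ι) : core c J v A 0 = A := rfl

theorem mem_core_succ {A : Finset ι} {m : ℕ} {e : ι} :
    e ∈ core c J v A (m + 1) ↔
      e ∈ core c J v A m ∧ ∀ j ∈ J, c j (core c J v A m) e = v j := by
  classical
  rw [core, Finset.mem_filter]

theorem core_succ_subset (A : Finset ι) (m : ℕ) : core c J v A (m + 1) ⊆ core c J v A m :=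
  fun _ he => (mem_core_succ.1 he).1

theorem core_anti (A : Finset ι) {m m' : ℕ} (h : m ≤ m') :
    core c J v A m' ⊆ core c J v A m := by
  induction m', h using Nat.le_induction with
  | base => exact Finset.Subset.refl _
  | succ m' _ ih => exact (core_succ_subset A m').trans ih

theorem core_subset (A : Finset ι) (m : ℕ) : core c J v A m ⊆ A := core_anti A (Nat.zero_le m)

theorem core_value {A : Finset ι} {m : ℕ} {e : ι} (he : e ∈ core c J v A (m + 1)) :
    ∀ j ∈ J, c j (core c J v A m) e = v j := (mem_core_succ.1 he).2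

theorem IsUnif.card_core (h : IsUnif c J β E' v)
    (hmono : ∀ j ∈ J, ∀ A B : Finset ι, A ⊆ B → B ⊆ E' → ∀ e ∈ A, c j B e ≤ c j A e)
    {A : Finset ι} (hA : A ⊆ E') (m : ℕ) :
    β * A.card ≤ β * (core c J v A m).card + m * (J.card * E'.card) := by
  classical
  induction m with
  | zero => simp
  | succ m ih =>
    have h1 := h.card_ne hmono ((core_subset (c := c) (J := J) (v := v) A m).trans hA)
    have h2 : (core c J v A m).card = (core c J v A (m + 1)).card +
        ((core c J v A m).filter (fun e => ∃ j ∈ J, c j (core c J v A m) e ≠ v j)).card := by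
      rw [← Finset.card_filter_add_card_filter_not (s := core c J v A m)
        (p := fun e => ∀ j ∈ J, c j (core c J v A m) e = v j)]
      congr 2
      ext e
      simp only [Finset.mem_filter]
      constructor
      · rintro ⟨h1, h2⟩
        refine ⟨h1, ?_⟩
        by_contra hcon
        apply h2
        intro j hj
        by_contra hne
        exact hcon ⟨j, hj, hne⟩
      · rintro ⟨h1, j, hj, hne⟩
        exact ⟨h1, fun hall => hne (hall j hj)⟩
    have h3 : (m + 1) * (J.card * E'.card) = m * (J.card * E'.card) + J.card * E'.card := by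
      ring
    have h4 : β * (core c J v A m).card = β * (core c J v A (m + 1)).card +
        β * ((core c J v A m).filter (fun e => ∃ j ∈ J, c j (core c J v A m) e ≠ v j)).card := by
      rw [← mul_add, ← h2]
    omega

/-- with `q * (m * |J|) ≤ β` the core loses at most `|E'| / q` edges -/
theorem IsUnif.card_core' (h : IsUnif c J β E' v)
    (hmono : ∀ j ∈ J, ∀ A B : Finset ι, A ⊆ B → B ⊆ E' → ∀ e ∈ A, c j B e ≤ c j A e)
    {A : Finset ι} (hA : A ⊆ E') (m q : ℕ) (hq : q * (m * J.card) ≤ β) (hβ : 0 < β) :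
    q * A.card ≤ q * (core c J v A m).card + E'.card := by
  have h1 := h.card_core hmono hA m
  have h2 : β * (q * A.card) ≤ β * (q * (core c J v A m).card + E'.card) := by
    calc β * (q * A.card) = q * (β * A.card) := by ring
      _ ≤ q * (β * (core c J v A m).card + m * (J.card * E'.card)) := Nat.mul_le_mul_left _ h1
      _ = β * (q * (core c J v A m).card) + (q * (m * J.card)) * E'.card := by ring
      _ ≤ β * (q * (core c J v A m).card) + β * E'.card :=
          Nat.add_le_add_left (Nat.mul_le_mul_right _ hq) _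
      _ = _ := by ring
  exact Nat.le_of_mul_le_mul_left h2 hβ

end core

section lo

variable {ι κ K : Type*} [Field K] [CharZero K]

/-- the fibre of `e` in `A` -/
noncomputable def fib {ι S : Type*} (p : ι → S) (A : Finset ι) (s : S) : Finset ι := by
  classical
  exact A.filter (fun e => p e = s)

theorem mem_fib {ι S : Type*} {p : ι → S} {A : Finset ι} {s : S} {e : ι} :
    e ∈ fib p A s ↔ e ∈ A ∧ p e = s := by
  classical
  rw [fib, Finset.mem_filter]

theorem fib_mono {ι S : Type*} {p : ι → S} {A B : Finset ι} (h : A ⊆ B) (s : S) :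
    fib p A s ⊆ fib p B s := fun _ he => mem_fib.2 ⟨h (mem_fib.1 he).1, (mem_fib.1 he).2⟩

theorem fib_subset {ι S : Type*} (p : ι → S) (A : Finset ι) (s : S) : fib p A s ⊆ A :=
  fun _ he => (mem_fib.1 he).1

theorem self_mem_fib {ι S : Type*} {p : ι → S} {A : Finset ι} {e : ι} (he : e ∈ A) :
    e ∈ fib p A (p e) := mem_fib.2 ⟨he, rfl⟩

theorem fib_unit {ι : Type*} (A : Finset ι) (s : Unit) : fib (fun _ => ()) A s = A := by
  ext e
  rw [mem_fib]
  exact ⟨fun h => h.1, fun h => ⟨h, rfl⟩⟩

/-- gradient rank at `e` of the fibre of `e` in `A`, at the level `T` -/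
noncomputable def gfr {σ S : Type*} (x : ι → σ → K) (p : ι → S)
    (V : ℕ → Submodule K (MvPolynomial σ K)) (T : ℕ) (A : Finset ι) (e : ι) : ℕ :=
  gr x (fib p A (p e)) (V T) (x e)

omit [CharZero K] in
theorem gfr_mono_set {σ S : Type*} [Fintype σ] (x : ι → σ → K) (p : ι → S)
    (V : ℕ → Submodule K (MvPolynomial σ K)) (T : ℕ) {A B : Finset ι} (h : A ⊆ B) (e : ι) :
    gfr x p V T B e ≤ gfr x p V T A e :=
  gr_mono (fib_mono h _) le_rfl _

omit [CharZero K] in
theorem gfr_le {σ S : Type*} [Fintype σ] (x : ι → σ → K) (p : ι → S)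
    (V : ℕ → Submodule K (MvPolynomial σ K)) (T : ℕ) (A : Finset ι) (e : ι) :
    gfr x p V T A e ≤ Fintype.card σ := gr_le _ _ _ _

/-- the functions `c (idx j)`, `j ≤ K'`, are the gradient ranks of the family `(x, p, V)` at the
levels `a * b ^ j` -/
def IsFam {σ S : Type*} (c : κ → Finset ι → ι → ℕ) (J : Finset κ) (idx : ℕ → κ) (K' : ℕ)
    (x : ι → σ → K) (p : ι → S) (V : ℕ → Submodule K (MvPolynomial σ K)) (a b : ℕ) : Prop :=
  ∀ j ≤ K', idx j ∈ J ∧ ∀ A e, c (idx j) A e = gfr x p V (a * b ^ j) A e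

variable {σ S : Type*} [Fintype σ] [DecidableEq σ]
  {c : κ → Finset ι → ι → ℕ} {J : Finset κ} {v : κ → ℕ}

omit [CharZero K] [DecidableEq σ] in
/-- monotonicity of the values along the levels -/
theorem IsFam.mono {V : ℕ → Submodule K (MvPolynomial σ K)} (hV : Monotone V)
    {x : ι → σ → K} {p : ι → S} {a b : ℕ} (hb : 1 ≤ b) {idx : ℕ → κ} {K' : ℕ}
    (hF : IsFam c J idx K' x p V a b) {A : Finset ι} {e : ι} (he : e ∈ core c J v A 1)
    {i j : ℕ} (hij : i ≤ j) (hj : j ≤ K') : v (idx i) ≤ v (idx j) := by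
  have h1 := core_value he
  simp only [core_zero] at h1
  rw [← h1 _ (hF i (hij.trans hj)).1, ← h1 _ (hF j hj).1, (hF i (hij.trans hj)).2,
    (hF j hj).2]
  exact gr_mono (Finset.Subset.refl _)
    (hV (Nat.mul_le_mul_left _ (Nat.pow_le_pow_right hb hij))) _

omit [CharZero K] [DecidableEq σ] in
theorem IsUnif.fam_mono {β : ℕ} {E' : Finset ι} (h : IsUnif c J β E' v) (hE : E'.Nonempty)
    (hβ : 1 < β)
    {V : ℕ → Submodule K (MvPolynomial σ K)} (hV : Monotone V)
    {x : ι → σ → K} {p : ι → S} {a b : ℕ} (hb : 1 ≤ b) {idx : ℕ → κ} {K' : ℕ}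
    (hF : IsFam c J idx K' x p V a b)
    {i j : ℕ} (hij : i ≤ j) (hj : j ≤ K') : v (idx i) ≤ v (idx j) := by
  by_contra hcon
  push Not at hcon
  -- then `v (idx j) < c (idx j) E' e` for all `e`
  have h1 := h.small (idx j) (hF j hj).1 E' (Finset.Subset.refl _) (fun e he => by
    refine hcon.trans_le ((h.le (idx i) (hF i (hij.trans hj)).1 E' (Finset.Subset.refl _) e
      he).trans ?_)
    rw [(hF i (hij.trans hj)).2, (hF j hj).2]
    exact gr_mono (Finset.Subset.refl _)
      (hV (Nat.mul_le_mul_left _ (Nat.pow_le_pow_right hb hij))) _)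
  have h2 : 0 < E'.card := hE.card_pos
  have h3 : 2 * E'.card ≤ β * E'.card := Nat.mul_le_mul_right _ hβ
  omega

/-- **(LO), uniform form.**  For every `A` and every `e` in the core of `A` of length `K₀ L k`:
lower bound of the rank of the part of `A` in the fibre of `e`, at all levels `j ≤ K₀`. -/
theorem lo_core [Infinite K] {V : ℕ → Submodule K (MvPolynomial σ K)} (hV : H580.IsFilt V)
    (hder : ∀ n i F, F ∈ V n → pderiv i F ∈ V n) {a : ℕ} (hX : ∀ i, X i ∈ V a)
    {x : ι → σ → K} {p : ι → S} (k β C₁ L K₀ : ℕ) (hk : 0 < k)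
    (hβ : k * (Fintype.card σ + 2) + 1 ≤ β) (hC : β ≤ C₁ * (k + 1)) (hC1 : 1 ≤ C₁)
    {idx : ℕ → κ} {K' : ℕ} (hK' : K' ≤ K₀)
    (hF : IsFam c J idx K' x p V a (β ^ L)) (A : Finset ι) {e : ι}
    (he : e ∈ core c J v A (K₀ * (L * k))) :
    (β ^ L) ^ (∑ j ∈ range K', (Fintype.card σ - v (idx j))) *
        H580.rkF V (pts x (fib p (core c J v A (K₀ * (L * k))) (p e))) a ≤
      ((C₁ ^ (Fintype.card σ) * (Fintype.card σ).factorial) ^ L) ^ K' *
        (β ^ L) ^ (Fintype.card σ *
          ((Fintype.card σ - v (idx 0)) - (Fintype.card σ - v (idx K')))) *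
        H580.rkF V (pts x (fib p A (p e))) (a * (β ^ L) ^ K') := by
  classical
  rcases Nat.eq_zero_or_pos K' with hK0 | hKpos
  · subst hK0
    simp only [Finset.range_zero, Finset.sum_empty, pow_zero, one_mul, Nat.sub_self,
      Nat.mul_zero, mul_one]
    exact hV.rkF_mono_set (pts_mono (fib_mono (core_subset A _) _)) _
  rcases Nat.eq_zero_or_pos L with hL | hL
  · subst hL
    simp only [pow_zero, one_pow, one_mul, mul_one]
    exact hV.rkF_mono_set (pts_mono (fib_mono (core_subset A _) _)) _
  have hβ1 : 1 ≤ β := by omega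
  have hpos : 0 < K₀ * (L * k) := Nat.mul_pos (hKpos.trans_le hK') (Nat.mul_pos hL hk)
  have he1 : e ∈ core c J v A 1 := core_anti A hpos he
  have h1 := lo_levels hV hder hX x k β C₁ L hk hβ hC hC1 (fun j => v (idx j)) K'
    (fun j hj => hF.mono hV.mono (Nat.pow_pos hβ1) he1 (Nat.le_succ j) hj)
    (fun i => fib p (core c J v A i) (p e))
    (fun i => fib_mono (core_succ_subset A i) _)
    (by
      intro j hj i _ e' he'
      have h2 := mem_fib.1 he'
      have h3 := core_value h2.1 (idx j) (hF j hj).1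
      rw [(hF j hj).2] at h3
      unfold gfr at h3
      rwa [h2.2] at h3)
  simp only [core_zero] at h1
  refine le_trans (Nat.mul_le_mul_left _ ?_) h1
  refine hV.rkF_mono_set (pts_mono (fib_mono (core_anti A ?_) _)) _
  exact Nat.mul_le_mul_right _ hK'

end lo

end Vale.Agent.P054.T2.H307
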