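import Mathlib

/-!
# The window lemma (P054, T2 project, row [R2])

Finitely many nonincreasing sequences of natural numbers `≤ N` on `0, .., K-1` and a nonnegative
gap which is a function of them and has a small sum: there is a window of `W` consecutive
indices on which all sequences are constant and the gap is zero.
-/

namespace Vale.Agent.P054.T2.H307

open Finset

/-- **[R2] Window lemma**, general form. -/
theorem exists_window {κ : Type*} (J : Finset κ) (a : κ → ℕ → ℕ) (g : ℕ → ℕ)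
    (K W N B : ℕ)
    (hanti : ∀ j ∈ J, ∀ k l : ℕ, k ≤ l → l < K → a j l ≤ a j k)
    (hN : ∀ j ∈ J, a j 0 ≤ N)
    (hg : ∀ k l : ℕ, k < K → l < K → (∀ j ∈ J, a j k = a j l) → g k = g l)
    (hsum : ∑ k ∈ range K, g k ≤ B)
    (hK : B + (J.card * N + 1) * W ≤ K) :
    ∃ k₀, k₀ + W ≤ K ∧ ∀ k, k₀ ≤ k → k < k₀ + W → (∀ j ∈ J, a j k = a j k₀) ∧ g k = 0 := by
  classical
  rcases Nat.eq_zero_or_pos W with hW | hW
  · subst hW
    exact ⟨0, by omega, fun k h1 h2 => by omega⟩
  have hKpos : 0 < K := by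
    have : 1 * 1 ≤ (J.card * N + 1) * W := Nat.mul_le_mul (by omega) hW
    omega
  set φ : ℕ → ℕ := fun k => ∑ j ∈ J, a j k with hφ
  set Z : Finset ℕ := (range K).filter (fun k => g k = 0) with hZ
  -- many indices have gap zero
  have hcard : (J.card * N + 1) * W ≤ Z.card := by
    have h1 : ((range K).filter (fun k => ¬ g k = 0)).card ≤ B := by
      calc ((range K).filter (fun k => ¬ g k = 0)).card
          = ∑ k ∈ (range K).filter (fun k => ¬ g k = 0), 1 := by simp
        _ ≤ ∑ k ∈ (range K).filter (fun k => ¬ g k = 0), g k := by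
            apply Finset.sum_le_sum
            intro k hk
            have := (Finset.mem_filter.1 hk).2
            omega
        _ ≤ ∑ k ∈ range K, g k :=
            Finset.sum_le_sum_of_subset (Finset.filter_subset _ _)
        _ ≤ B := hsum
    have h2 := Finset.card_filter_add_card_filter_not (s := range K) (p := fun k => g k = 0)
    rw [Finset.card_range] at h2
    have h3 : Z.card = ((range K).filter (fun k => g k = 0)).card := rfl
    omega
  have hφle : ∀ k ∈ Z, φ k ∈ range (J.card * N + 1) := by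
    intro k hk
    have hk' : k < K := Finset.mem_range.1 (Finset.mem_filter.1 hk).1
    rw [Finset.mem_range]
    have : φ k ≤ J.card * N := by
      calc φ k = ∑ j ∈ J, a j k := rfl
        _ ≤ ∑ _j ∈ J, N := Finset.sum_le_sum
            (fun j hj => (hanti j hj 0 k (Nat.zero_le _) hk').trans (hN j hj))
        _ = J.card * N := by simp
    omega
  obtain ⟨u, -, hu⟩ := Finset.exists_le_card_fiber_of_mul_le_card_of_maps_to
    (s := Z) (t := range (J.card * N + 1)) (f := φ) (n := W) hφle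
    ⟨0, Finset.mem_range.2 (by omega)⟩ (by rw [Finset.card_range]; exact hcard)
  set Fu : Finset ℕ := Z.filter (fun k => φ k = u) with hFu
  have hFne : Fu.Nonempty := by
    rw [← Finset.card_pos]
    omega
  set k₀ := Fu.min' hFne with hk₀
  set k₁ := Fu.max' hFne with hk₁
  have hm0 : k₀ ∈ Fu := Finset.min'_mem _ _
  have hm1 : k₁ ∈ Fu := Finset.max'_mem _ _
  have hsubI : Fu ⊆ Finset.Icc k₀ k₁ := by
    intro k hk
    exact Finset.mem_Icc.2 ⟨Finset.min'_le _ _ hk, Finset.le_max' _ _ hk⟩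
  have hcI : Fu.card ≤ k₁ + 1 - k₀ := by
    have := Finset.card_le_card hsubI
    rwa [Nat.card_Icc] at this
  have h0 := Finset.mem_filter.1 hm0
  have h1 := Finset.mem_filter.1 hm1
  have h0Z := Finset.mem_filter.1 h0.1
  have h1Z := Finset.mem_filter.1 h1.1
  have hk1K : k₁ < K := Finset.mem_range.1 h1Z.1
  have hk0K : k₀ < K := Finset.mem_range.1 h0Z.1
  refine ⟨k₀, by omega, ?_⟩
  intro k hk hkW
  have hkk1 : k ≤ k₁ := by omega
  have hkK : k < K := by omega
  -- the sum is constant, hence every sequence is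
  have hle : ∀ j ∈ J, a j k ≤ a j k₀ := fun j hj => hanti j hj k₀ k hk hkK
  have hle1 : ∀ j ∈ J, a j k₁ ≤ a j k := fun j hj => hanti j hj k k₁ hkk1 hk1K
  have hs1 : φ k₁ ≤ φ k := Finset.sum_le_sum hle1
  have hs0 : φ k ≤ φ k₀ := Finset.sum_le_sum hle
  have hφk : ∑ j ∈ J, a j k = ∑ j ∈ J, a j k₀ := by
    have e0 : φ k₀ = u := h0.2
    have e1 : φ k₁ = u := h1.2
    have : φ k = φ k₀ := by omega
    exact this
  have hconst : ∀ j ∈ J, a j k = a j k₀ :=
    (Finset.sum_eq_sum_iff_of_le hle).1 hφk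
  refine ⟨hconst, ?_⟩
  rw [hg k k₀ hkK hk0K hconst]
  exact h0Z.2

/-- **[R2] Window lemma** for `e ≥ s₁ + s₂`. -/
theorem exists_tight_window (e s₁ s₂ : ℕ → ℕ) (K W N B : ℕ)
    (he : ∀ k l : ℕ, k ≤ l → l < K → e l ≤ e k)
    (h₁ : ∀ k l : ℕ, k ≤ l → l < K → s₁ l ≤ s₁ k)
    (h₂ : ∀ k l : ℕ, k ≤ l → l < K → s₂ l ≤ s₂ k)
    (heN : e 0 ≤ N) (h₁N : s₁ 0 ≤ N) (h₂N : s₂ 0 ≤ N)
    (hge : ∀ k < K, s₁ k + s₂ k ≤ e k)
    (hsum : ∑ k ∈ range K, e k ≤ B + ∑ k ∈ range K, (s₁ k + s₂ k))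
    (hK : B + (3 * N + 1) * W ≤ K) :
    ∃ k₀, k₀ + W ≤ K ∧ ∀ k, k₀ ≤ k → k < k₀ + W →
      e k = e k₀ ∧ s₁ k = s₁ k₀ ∧ s₂ k = s₂ k₀ ∧ e k = s₁ k + s₂ k := by
  classical
  let a : Fin 3 → ℕ → ℕ := fun i => if i = 0 then e else if i = 1 then s₁ else s₂
  have a0 : a 0 = e := rfl
  have a1 : a 1 = s₁ := rfl
  have a2 : a 2 = s₂ := rfl
  have hall : ∀ Q : (ℕ → ℕ) → Prop, Q e → Q s₁ → Q s₂ → ∀ j : Fin 3, Q (a j) := by
    intro Q q0 q1 q2 j
    fin_cases j
    · exact q0
    · exact q1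
    · exact q2
  have hgap : ∑ k ∈ range K, (e k - (s₁ k + s₂ k)) ≤ B := by
    have : ∑ k ∈ range K, (e k - (s₁ k + s₂ k)) + ∑ k ∈ range K, (s₁ k + s₂ k) =
        ∑ k ∈ range K, e k := by
      rw [← Finset.sum_add_distrib]
      apply Finset.sum_congr rfl
      intro k hk
      have := hge k (Finset.mem_range.1 hk)
      omega
    omega
  obtain ⟨k₀, hk₀, hw⟩ := exists_window (Finset.univ : Finset (Fin 3)) a
    (fun k => e k - (s₁ k + s₂ k)) K W N B
    (fun j _ => hall (fun f => ∀ k l : ℕ, k ≤ l → l < K → f l ≤ f k) he h₁ h₂ j)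
    (fun j _ => hall (fun f => f 0 ≤ N) heN h₁N h₂N j)
    (by
      intro k l hk hl h
      have q0 := h 0 (Finset.mem_univ _)
      have q1 := h 1 (Finset.mem_univ _)
      have q2 := h 2 (Finset.mem_univ _)
      rw [a0] at q0
      rw [a1] at q1
      rw [a2] at q2
      simp only [q0, q1, q2])
    hgap (by simpa using hK)
  refine ⟨k₀, hk₀, fun k hk hkW => ?_⟩
  obtain ⟨hc, hz⟩ := hw k hk hkW
  have q0 := hc 0 (Finset.mem_univ _)
  have q1 := hc 1 (Finset.mem_univ _)
  have q2 := hc 2 (Finset.mem_univ _)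
  rw [a0] at q0
  rw [a1] at q1
  rw [a2] at q2
  have hge' := hge k (by omega)
  refine ⟨q0, q1, q2, ?_⟩
  have hz' : e k - (s₁ k + s₂ k) = 0 := hz
  omega

end Vale.Agent.P054.T2.H307
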